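import Mathlib.Data.Fin.Basic
import Mathlib.Data.Set.Card
import Mathlib.Data.Fintype.Card

/-!
# P032, alternating points: the finite system with seven nodes

Nodes: `none` (the centre) and `some k` (its six neighbours `V_k`).  A state gives the six letters
of every node, slot `j` at the node `some k` is directed to the centre for `j = k + 3` and to the
node `some (k + 1)` (`some (k - 1)`) for `j = k + 2` (`j = k - 2`).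
-/

namespace Vale.Agent.P032.H89

/-- six letters for each of the seven nodes -/
abbrev State : Type := Option (Fin 6) → Fin 6 → Set (Fin 6)

/-- node palettes `N` and a set `Q` of states with all rules -/
structure Sys (m : Fin 6) (N : Option (Fin 6) → Set (Fin 6)) (Q : Set State) : Prop where
  nz : N none = {m}ᶜ
  nv : ∀ k, m ∈ N (some k)
  nv' : ∀ k, ∃ c, c ∉ N (some k)
  ne : ∀ σ ∈ Q, ∀ p j, (σ p j).Nonempty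
  hex : ∀ σ ∈ Q, ∀ p j, Disjoint (σ p j) (σ p (j + 1))
  inz : ∀ σ ∈ Q, ∀ k, σ none k ⊆ N (some k)
  inv : ∀ σ ∈ Q, ∀ k, σ (some k) (k + 3) ⊆ N none
  inr : ∀ σ ∈ Q, ∀ k, σ (some k) (k + 2) ⊆ N (some (k + 1))
  inl : ∀ σ ∈ Q, ∀ k, σ (some k) (k - 2) ⊆ N (some (k - 1))
  two : ∀ σ ∈ Q, ∀ p j, ∀ c ∈ σ p j, c ∈ N p → ∃ d ∈ σ p j, d ≠ c
  gap : ∀ σ ∈ Q, ∀ p j c, ∃ d ∈ N p, d ∉ σ p j ∧ d ≠ c
  rz : ∀ σ ∈ Q, ∀ k j, Disjoint (σ none j) (σ (some k) j)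
  rv : ∀ σ ∈ Q, ∀ k j, Disjoint (σ (some k) j) (σ (some (k + 1)) j)
  alt : ∀ σ ∈ Q, ∀ j, m ∈ σ none j ↔ m ∉ σ none (j + 1)
  biex : ∀ σ ∈ Q, ∀ σ' ∈ Q, ∀ p j j', σ p j ⊆ N p → σ' p j' ⊆ N p → ¬ Disjoint (σ p j) (σ' p j')
  deg : ∀ p, 4 ≤ (N p).ncard → ∀ a ∈ N p, ∃ d e, d ∈ N p ∧ e ∈ N p ∧ d ≠ a ∧ e ≠ a ∧ d ≠ e ∧
    ∀ σ ∈ Q, ∀ j, σ p j ≠ {a, d} ∧ σ p j ≠ {a, e}
  m3r : ∀ a, a ≠ m → ∀ k (t : Prop), ∃ σ ∈ Q, (m ∈ σ none 0 ↔ t) ∧ a ∉ σ (some k) (k + 2)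
  m3l : ∀ a, a ≠ m → ∀ k (t : Prop), ∃ σ ∈ Q, (m ∈ σ none 0 ↔ t) ∧ a ∉ σ (some k) (k - 2)

end Vale.Agent.P032.H89
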