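import Vale.Agent.P032.H89.Sys7

/-!
# P032, alternating points: the finite system at an isolated switching direction (helper766)

`Q true` (`Q false`) : the states which occur at times arbitrarily near the switching direction
`s`, on its right (left) side.  `Nn Q p d t W` : some state of the side `t` has at the node `p` in
the slot `d` a letter disjoint from `W`.
-/

namespace Vale.Agent.P032.H89

/-- some state of the side `t` has a letter of `p`, slot `d`, disjoint from `W` -/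
def Nn (Q : Bool → Set State) (p : Option (Fin 6)) (d : Fin 6) (t : Bool) (W : Set (Fin 6)) :
    Prop :=
  ∃ σ ∈ Q t, Disjoint (σ p d) W

/-- the crossings near the node `V_K` of the circle about a point `w` near the centre: `i` = `w` is
inside the unit disc about `V_K` -/
def Cr (Q : Bool → Set State) (K : Fin 6) (i : Prop) (W : Set (Fin 6)) : Prop :=
  (¬ i → Nn Q (some (K - 1)) (K + 1) true W ∧ Nn Q (some (K + 1)) (K - 1) false W) ∧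
  (i → Nn Q (some (K - 1)) (K + 1) false W ∧ Nn Q (some (K + 1)) (K - 1) true W)

/-- node palettes `N` and the states `Q` of the two sides of an isolated switching direction -/
structure SysI (m : Fin 6) (N : Option (Fin 6) → Set (Fin 6)) (Q : Bool → Set State) : Prop where
  nz : N none = {m}ᶜ
  nv : ∀ k, m ∈ N (some k)
  nv' : ∀ k, ∃ c, c ∉ N (some k)
  ne : ∀ t, ∀ σ ∈ Q t, ∀ p j, (σ p j).Nonempty
  hex : ∀ t, ∀ σ ∈ Q t, ∀ p j, Disjoint (σ p j) (σ p (j + 1))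
  inz : ∀ t, ∀ σ ∈ Q t, ∀ k, σ none k ⊆ N (some k)
  inv : ∀ t, ∀ σ ∈ Q t, ∀ k, σ (some k) (k + 3) ⊆ N none
  inr : ∀ t, ∀ σ ∈ Q t, ∀ k, σ (some k) (k + 2) ⊆ N (some (k + 1))
  inl : ∀ t, ∀ σ ∈ Q t, ∀ k, σ (some k) (k - 2) ⊆ N (some (k - 1))
  two : ∀ t, ∀ σ ∈ Q t, ∀ p j, ∀ c ∈ σ p j, c ∈ N p → ∃ d ∈ σ p j, d ≠ c
  gap : ∀ t, ∀ σ ∈ Q t, ∀ p j c, ∃ d ∈ N p, d ∉ σ p j ∧ d ≠ c
  rz : ∀ t, ∀ σ ∈ Q t, ∀ k j, Disjoint (σ none j) (σ (some k) j)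
  rv : ∀ t, ∀ σ ∈ Q t, ∀ k j, Disjoint (σ (some k) j) (σ (some (k + 1)) j)
  ty : ∀ t, ∀ σ ∈ Q t, ∀ j, m ∈ σ none j ↔ (Even j.val ↔ t = true)
  ex : ∀ t, (Q t).Nonempty
  biex : ∀ t, ∀ σ ∈ Q t, ∀ t', ∀ σ' ∈ Q t', ∀ p j j', σ p j ⊆ N p → σ' p j' ⊆ N p →
    ¬ Disjoint (σ p j) (σ' p j')
  deg : ∀ p, 4 ≤ (N p).ncard → ∀ a ∈ N p, ∃ d e, d ∈ N p ∧ e ∈ N p ∧ d ≠ a ∧ e ≠ a ∧ d ≠ e ∧
    ∀ t, ∀ σ ∈ Q t, ∀ j, σ p j ≠ {a, d} ∧ σ p j ≠ {a, e}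
  r7z : ∀ t, ∀ σ ∈ Q t, ∀ t', ∀ σ' ∈ Q t', ∀ k j, ¬ σ' (some k) j ⊆ σ none k
  r7v : ∀ t, ∀ σ ∈ Q t, ∀ t', ∀ σ' ∈ Q t', ∀ k j, ¬ σ' none j ⊆ σ (some k) (k + 3)
  r7r : ∀ t, ∀ σ ∈ Q t, ∀ t', ∀ σ' ∈ Q t', ∀ k j, ¬ σ' (some (k + 1)) j ⊆ σ (some k) (k + 2)
  r7l : ∀ t, ∀ σ ∈ Q t, ∀ t', ∀ σ' ∈ Q t', ∀ k j, ¬ σ' (some (k - 1)) j ⊆ σ (some k) (k - 2)
  /-- each colour of the centre lives in a sector or in a cusp -/
  s3 : ∀ a, a ≠ m → ∃ I : Fin 6 → Prop, (∀ K, Cr Q K (I K) {a}) ∧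
    ((∃ w, ∀ K, I K ↔ (K = w ∨ K = w + 1 ∨ K = w + 2)) ∨
    (∃ w, (∀ K, I K ↔ (K = w + 1 ∨ K = w + 2)) ∧ Nn Q none w true {a} ∧
      Nn Q none (w + 3) false {a}))
  /-- whole letters of `V_k` at the centre -/
  s1 : ∀ t, ∀ σ ∈ Q t, ∀ k K, K ≠ k →
    Cr Q K (if t = true then K = k + 4 ∨ K = k + 5 else K = k + 1 ∨ K = k + 2)
      (σ (some k) (k + 3))
  /-- whole letters of `V_k` at `V_(k + 1)` -/
  s2r : ∀ t, ∀ σ ∈ Q t, ∀ k,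
    Nn Q (some k) (k + 3) t (σ (some k) (k + 2)) ∧
    Nn Q (some (k - 1)) (k + 2) t (σ (some k) (k + 2)) ∧
    Nn Q (some (k + 2)) (k + 5) (!t) (σ (some k) (k + 2)) ∧
    Nn Q (some (k + 3)) (k + 6) (!t) (σ (some k) (k + 2)) ∧
    Nn Q (some (k + 3)) (k + 1) t (σ (some k) (k + 2))
  /-- whole letters of `V_k` at `V_(k - 1)` -/
  s2l : ∀ t, ∀ σ ∈ Q t, ∀ k,
    Nn Q (some k) (k + 3) t (σ (some k) (k - 2)) ∧
    Nn Q (some (k + 1)) (k + 4) t (σ (some k) (k - 2)) ∧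
    Nn Q (some (k - 2)) (k + 1) (!t) (σ (some k) (k - 2)) ∧
    Nn Q (some (k - 3)) k (!t) (σ (some k) (k - 2)) ∧
    Nn Q (some (k - 3)) (k - 1) t (σ (some k) (k - 2))

end Vale.Agent.P032.H89
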