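import Vale.Agent.P032.S5.H767.RawT

/-!
# P032: centres with at least five colours (frame `Irr U T`, no further assumption)

helper800's dichotomy.  `Gen T z t`: the palettes of the six points `pt z (t + k)` are locally
constant along `S(z)`.

* `gen_exists` : generic times are dense,
* `gen_disjoint` : neighbouring palettes are disjoint at a generic time,
* `Biex T z` : two open arcs of `S(z)` with constant disjoint palettes inside `T z`,
* `biex_six` : a point with all six colours is biexact,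
* `biex_or_alt` : a point with `T z = {m}ᶜ` is biexact or alternating,
* `alt_switch` : an alternating point has six points `pt z (t + k)` all with `m` and with an exact
  palette each, no two neighbours of which have at most three colours.
-/

open Set Filter Topology Metric

noncomputable section

namespace Vale.Agent.P032.H89

open Vale.Agent.P032.Six Vale.Agent.P032.S5.H767

variable {U : Fin 6 → Set ℂ} {T : ℂ → Set (Fin 6)} {z : ℂ}

/-- the palette is locally constant along `S(z)` at the time `s` -/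
def Lc (T : ℂ → Set (Fin 6)) (z : ℂ) (s : ℝ) : Prop := ∀ᶠ v in 𝓝 s, T (pt z v) = T (pt z s)

/-- a generic time -/
def Gen (T : ℂ → Set (Fin 6)) (z : ℂ) (t : ℝ) : Prop := ∀ k : ℤ, Lc T z (t + k)

theorem pt_int (z : ℂ) (s : ℝ) (n : ℤ) : pt z (s + 6 * n) = pt z s := by
  unfold pt
  congr 1
  have : (s + 6 * n) * (Real.pi / 3) = s * (Real.pi / 3) + n * (2 * Real.pi) := by ring
  rw [this]
  unfold cis
  rw [Complex.exp_eq_exp_iff_exists_int]
  exact ⟨n, by push_cast; ring⟩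

theorem lc_int {s : ℝ} (n : ℤ) (h : Lc T z s) : Lc T z (s + 6 * n) := by
  have h1 : Tendsto (fun v : ℝ => v - 6 * n) (𝓝 (s + 6 * n)) (𝓝 s) := by
    have h2 : Continuous fun v : ℝ => v - 6 * n := by fun_prop
    have h3 := h2.tendsto (s + 6 * n)
    rwa [add_sub_cancel_right] at h3
  filter_upwards [h1.eventually h] with v hv
  rw [pt_int, ← hv, ← pt_int z (v - 6 * n) n]
  congr 2
  ring

/-- common local constancy -/
theorem gen_exists (h : Irr U T) (z : ℂ) {O : Set ℝ} (hO : IsOpen O) (hne : O.Nonempty) :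
    ∃ t ∈ O, Gen T z t := by
  let f : ℝ → ℕ := fun τ => ∑ j : Fin 6, (T (pt z (τ + (j.val : ℤ)))).ncard
  obtain ⟨_, ⟨τ, hτ, rfl⟩, hmin⟩ :=
    WellFounded.has_min (r := ((· < ·) : ℕ → ℕ → Prop)) wellFounded_lt _ (hne.image f)
  refine ⟨τ, hτ, ?_⟩
  have h1 : ∀ᶠ τ' in 𝓝 τ, ∀ j : Fin 6,
      T (pt z (τ' + (j.val : ℤ))) ⊆ T (pt z (τ + (j.val : ℤ))) := by
    refine eventually_all.2 fun j => ?_
    have h2 : Continuous fun τ' : ℝ => pt z (τ' + (j.val : ℤ)) :=
      (continuous_pt z).comp (by fun_prop)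
    exact (h2.tendsto τ).eventually (h.nhd _)
  have h3 : ∀ᶠ τ' in 𝓝 τ, ∀ j : Fin 6,
      T (pt z (τ' + (j.val : ℤ))) = T (pt z (τ + (j.val : ℤ))) := by
    filter_upwards [h1, hO.mem_nhds hτ] with τ' h4 h5 j
    have h6 : f τ ≤ f τ' := not_lt.1 (hmin _ ⟨τ', h5, rfl⟩)
    have h7 : ∀ j ∈ (Finset.univ : Finset (Fin 6)), (T (pt z (τ' + (j.val : ℤ)))).ncard ≤
        (T (pt z (τ + (j.val : ℤ)))).ncard :=
      fun j _ => Set.ncard_le_ncard (h4 j) (Set.toFinite _)
    have h8 : f τ' = f τ := le_antisymm (Finset.sum_le_sum h7) h6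
    have h9 := (Finset.sum_eq_sum_iff_of_le h7).1 h8 j (Finset.mem_univ j)
    exact Set.eq_of_subset_of_ncard_le (h4 j) h9.ge (Set.toFinite _)
  have h4 : ∀ j : Fin 6, Lc T z (τ + (j.val : ℤ)) := by
    intro j
    have h5 : Tendsto (fun v : ℝ => v - (j.val : ℤ)) (𝓝 (τ + (j.val : ℤ))) (𝓝 τ) := by
      have h6 : Continuous fun v : ℝ => v - ((j.val : ℤ) : ℝ) := by fun_prop
      have h7 := h6.tendsto (τ + (j.val : ℤ))
      rwa [add_sub_cancel_right] at h7
    filter_upwards [h5.eventually h3] with v hv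
    have h8 := hv j
    rwa [sub_add_cancel] at h8
  intro k
  have hk : k = (k % 6) + 6 * (k / 6) := (Int.emod_add_mul_ediv k 6).symm
  have hk0 : 0 ≤ k % 6 := Int.emod_nonneg _ (by norm_num)
  have hk6 : k % 6 < 6 := Int.emod_lt_of_pos _ (by norm_num)
  have h5 := h4 ⟨(k % 6).toNat, by omega⟩
  have h6 : (((k % 6).toNat : ℤ) : ℝ) = ((k % 6 : ℤ) : ℝ) := by
    rw [Int.toNat_of_nonneg hk0]
  have h7 := lc_int (k / 6) h5
  have h8 : τ + (((k % 6).toNat : ℤ) : ℝ) + 6 * ((k / 6 : ℤ) : ℝ) = τ + k := by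
    rw [h6]
    conv_rhs => rw [hk]
    push_cast
    ring
  rw [← h8]
  exact h7

theorem Gen.shift {t : ℝ} (h : Gen T z t) (n : ℤ) : Gen T z (t + n) := by
  intro k
  have := h (n + k)
  rwa [Int.cast_add, ← add_assoc] at this

theorem Gen.circ {t : ℝ} (h : Gen T z t) : ∀ᶠ q in 𝓝[sphere z 1] (pt z t), T q = T (pt z t) := by
  have h1 := h 0
  rw [Int.cast_zero, add_zero] at h1
  exact ev_circle z h1

/-- neighbouring palettes are disjoint -/
theorem gen_disjoint (h : Irr U T) {t : ℝ} (hg : Gen T z t) :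
    Disjoint (T (pt z t)) (T (pt z (t + 1))) := by
  rw [Set.disjoint_left]
  intro c hc hc'
  obtain ⟨h1, h2⟩ := tri (dist_pt z t) (dist_pt z (t + 1))
  refine line_free h (dist_pt z t) (hg.circ.mono fun q hq => hq ▸ hc) (v := pt z (t + 1))
    (dist_pt_one z t) h1.symm ?_ (h.sub _ hc')
  rw [add_comm]; exact h2

/-- an arc of `S(z)` with constant palette inside `T z` -/
def Ext (T : ℂ → Set (Fin 6)) (z q : ℂ) : Prop :=
  dist q z = 1 ∧ (∀ᶠ q' in 𝓝[sphere z 1] q, T q' = T q) ∧ T q ⊆ T z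

/-- two open arcs with constant disjoint palettes inside `T z` -/
def Biex (T : ℂ → Set (Fin 6)) (z : ℂ) : Prop :=
  ∃ p q, Ext T z p ∧ Ext T z q ∧ Disjoint (T p) (T q)

theorem Gen.ext {t : ℝ} (h : Gen T z t) (hs : T (pt z t) ⊆ T z) : Ext T z (pt z t) :=
  ⟨dist_pt z t, h.circ, hs⟩

/-- an exact palette has at least two colours, and two colours of `T z` are outside -/
theorem Ext.two (h : Irr U T) {q : ℂ} (hq : Ext T z q) :
    2 ≤ (T q).ncard ∧ 2 ≤ (T z \ T q).ncard := by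
  obtain ⟨hqz, hJ, hs⟩ := hq
  obtain ⟨i, hi⟩ := h.ne q
  have hz : z ∈ XX U := h.mem_XX (by rw [dist_comm]; exact hqz) (hs hi) (h.sub q hi)
  refine ⟨?_, h.gap_two hz hqz (hJ.mono fun q' hq' => by rw [← hq']; exact h.sub q')⟩
  by_contra hcon
  have h1 : (T q).ncard ≤ 1 := by omega
  have h2 : T q ⊆ {i} := fun m hm => (Set.ncard_le_one (Set.toFinite _)).1 h1 m hm i hi
  exact h.mx.notMem' (h.mem_of_single h2) hqz (h.sub z (hs hi))

/-- **A point with all six colours is biexact.** -/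
theorem biex_six (h : Irr U T) (hz : ∀ i, i ∈ T z) : Biex T z := by
  obtain ⟨t, -, hg⟩ := gen_exists h z isOpen_univ univ_nonempty
  have h1 : Gen T z (t + 1) := by simpa using hg.shift 1
  exact ⟨_, _, hg.ext fun i _ => hz i, h1.ext fun i _ => hz i, gen_disjoint h hg⟩

/-- the alternating points: at every generic time exactly one of two neighbours has `m` -/
def Alt (T : ℂ → Set (Fin 6)) (z : ℂ) (m : Fin 6) : Prop :=
  ∀ t, Gen T z t → (m ∈ T (pt z t) ↔ m ∉ T (pt z (t + 1)))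

/-- **Dichotomy.** -/
theorem biex_or_alt (h : Irr U T) {m : Fin 6} (hz : T z = {m}ᶜ) : Biex T z ∨ Alt T z m := by
  by_cases hb : Biex T z
  · exact Or.inl hb
  refine Or.inr fun t hg => ?_
  have h1 : Gen T z (t + 1) := by simpa using hg.shift 1
  have hd := gen_disjoint h hg
  constructor
  · intro hm hm'
    exact Set.disjoint_left.1 hd hm hm'
  · intro hm'
    by_contra hm
    refine hb ⟨_, _, hg.ext ?_, h1.ext ?_, hd⟩
    · intro i hi
      rw [hz]
      rintro rfl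
      exact hm hi
    · intro i hi
      rw [hz]
      rintro rfl
      exact hm' hi

/-- the limits of the exact palettes -/
theorem exists_limit (h : Irr U T) {m : Fin 6} (hz : T z = {m}ᶜ) {s : ℝ}
    (hs : ∃ᶠ t in 𝓝 s, Gen T z t ∧ m ∉ T (pt z t)) :
    ∃ Q : Set (Fin 6), Q ⊆ T (pt z s) ∧ m ∉ Q ∧ ∃ q, Ext T z q ∧ T q = Q := by
  have hc : Continuous fun t => pt z t := continuous_pt z
  have h1 : ∀ᶠ t in 𝓝 s, T (pt z t) ⊆ T (pt z s) := (hc.tendsto s).eventually (h.nhd _)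
  obtain ⟨t, ⟨hg, hm⟩, hsub⟩ := (hs.and_eventually h1).exists
  refine ⟨T (pt z t), hsub, hm, pt z t, hg.ext ?_, rfl⟩
  intro i hi
  rw [hz]
  rintro rfl
  exact hm hi

/-- **The switching hexagon of an alternating point.** -/
theorem alt_switch (h : Irr U T) {m : Fin 6} (hz : T z = {m}ᶜ) (hb : ¬ Biex T z) :
    ∃ t : ℝ, ∃ Q : ℤ → Set (Fin 6), (∀ k : ℤ, m ∈ T (pt z (t + k)) ∧ Q k ⊆ T (pt z (t + k)) ∧
      m ∉ Q k ∧ (∃ q, Ext T z q ∧ T q = Q k) ∧ (Q k ∩ Q (k + 1)).Nonempty) ∧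
      ∀ k : ℤ, 4 ≤ (T (pt z (t + k))).ncard ∨ 4 ≤ (T (pt z (t + k + 1))).ncard := by
  have ha : Alt T z m := (biex_or_alt h hz).resolve_left hb
  have hper : ∀ t, Gen T z t → ∀ k : ℤ, (m ∈ T (pt z (t + k)) ↔ (m ∈ T (pt z t) ↔ Even k)) := by
    intro t hg k
    induction k using Int.induction_on with
    | zero => simp
    | succ n ih =>
      have h1 := ha _ (hg.shift n)
      have h2 : t + ((n : ℤ) : ℝ) + 1 = t + (((n : ℤ) + 1 : ℤ) : ℝ) := by push_cast; ring
      rw [h2] at h1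
      have h3 : Even ((n : ℤ) + 1) ↔ ¬ Even (n : ℤ) := Int.even_add_one
      tauto
    | pred n ih =>
      have h1 := ha _ (hg.shift (-(n : ℤ) - 1))
      have h2 : t + ((-(n : ℤ) - 1 : ℤ) : ℝ) + 1 = t + ((-(n : ℤ) : ℤ) : ℝ) := by push_cast; ring
      rw [h2] at h1
      have h3 : Even (-(n : ℤ)) ↔ ¬ Even (-(n : ℤ) - 1) := by
        have := Int.even_add_one (n := -(n : ℤ) - 1)
        rwa [sub_add_cancel] at this
      tauto
  -- the two closed sets
  set A : Set ℝ := closure {t | Gen T z t ∧ m ∈ T (pt z t)} with hA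
  set B : Set ℝ := closure {t | Gen T z t ∧ m ∉ T (pt z t)} with hB
  have hcov : ∀ t : ℝ, t ∈ A ∪ B := by
    intro t
    rw [hA, hB, ← closure_union]
    rw [_root_.mem_closure_iff]
    intro O hO htO
    obtain ⟨t', ht', hg⟩ := gen_exists h z hO ⟨t, htO⟩
    refine ⟨t', ht', ?_⟩
    by_cases hm : m ∈ T (pt z t')
    · exact Or.inl ⟨hg, hm⟩
    · exact Or.inr ⟨hg, hm⟩
  have hABne : (A ∩ B).Nonempty := by
    obtain ⟨t, -, hg⟩ := gen_exists h z isOpen_univ univ_nonempty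
    have hg1 : Gen T z (t + 1) := by simpa using hg.shift 1
    have hAne : A.Nonempty := by
      by_cases hm : m ∈ T (pt z t)
      · exact ⟨t, subset_closure ⟨hg, hm⟩⟩
      · refine ⟨t + 1, subset_closure ⟨hg1, ?_⟩⟩
        by_contra hm'
        exact hm ((ha t hg).2 hm')
    have hBne : B.Nonempty := by
      by_cases hm : m ∈ T (pt z t)
      · exact ⟨t + 1, subset_closure ⟨hg1, (ha t hg).1 hm⟩⟩
      · exact ⟨t, subset_closure ⟨hg, hm⟩⟩
    have hpre : IsPreconnected (univ : Set ℝ) := isPreconnected_univ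
    rw [isPreconnected_closed_iff] at hpre
    have := hpre A B isClosed_closure isClosed_closure (fun t _ => hcov t)
      (by rwa [univ_inter]) (by rwa [univ_inter])
    rwa [univ_inter] at this
  obtain ⟨t, htA, htB⟩ := hABne
  rw [hA, mem_closure_iff_frequently] at htA
  rw [hB, mem_closure_iff_frequently] at htB
  have hshift : ∀ (k : ℤ) {P : ℝ → Prop}, (∃ᶠ s in 𝓝 t, P (s + k)) → ∃ᶠ s in 𝓝 (t + k), P s := by
    intro k P hP
    have h1 : Tendsto (fun s : ℝ => s + k) (𝓝 t) (𝓝 (t + k)) := by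
      have h2 : Continuous fun s : ℝ => s + (k : ℝ) := by fun_prop
      exact h2.tendsto t
    exact h1.frequently hP
  have hin : ∀ k : ℤ, ∃ᶠ s in 𝓝 (t + k), Gen T z s ∧ m ∈ T (pt z s) := by
    intro k
    refine hshift k ?_
    rcases Int.even_or_odd k with hk | hk
    · exact htA.mono fun s hs => ⟨hs.1.shift k, (hper s hs.1 k).2 (iff_of_true hs.2 hk)⟩
    · exact htB.mono fun s hs => ⟨hs.1.shift k, (hper s hs.1 k).2
        (iff_of_false hs.2 (Int.not_even_iff_odd.2 hk))⟩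
  have hout : ∀ k : ℤ, ∃ᶠ s in 𝓝 (t + k), Gen T z s ∧ m ∉ T (pt z s) := by
    intro k
    refine hshift k ?_
    rcases Int.even_or_odd k with hk | hk
    · refine htB.mono fun s hs => ⟨hs.1.shift k, fun hm => ?_⟩
      exact hs.2 (((hper s hs.1 k).1 hm).2 hk)
    · refine htA.mono fun s hs => ⟨hs.1.shift k, fun hm => ?_⟩
      exact Int.not_even_iff_odd.2 hk (((hper s hs.1 k).1 hm).1 hs.2)
  have hmem : ∀ k : ℤ, m ∈ T (pt z (t + k)) := fun k =>
    (h.closed m).mem_of_frequently_of_tendsto ((hin k).mono fun s hs => hs.2)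
      ((continuous_pt z).tendsto (t + k))
  choose Q hQs hmQ hQe using fun k => exists_limit h hz (hout k)
  have hQQ : ∀ k : ℤ, (Q k ∩ Q (k + 1)).Nonempty := by
    intro k
    obtain ⟨p, hp, hp'⟩ := hQe k
    obtain ⟨q, hq, hq'⟩ := hQe (k + 1)
    by_contra hcon
    refine hb ⟨p, q, hp, hq, ?_⟩
    rw [hp', hq', Set.disjoint_iff_inter_eq_empty]
    exact Set.not_nonempty_iff_eq_empty.1 hcon
  refine ⟨t, Q, fun k => ⟨hmem k, hQs k, hmQ k, hQe k, hQQ k⟩, fun k => ?_⟩
  by_contra hcon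
  push Not at hcon
  obtain ⟨h3, h3'⟩ := hcon
  have e1 : t + (k : ℝ) + 1 = t + ((k + 1 : ℤ) : ℝ) := by push_cast; ring
  rw [e1] at h3'
  -- both palettes are `Q ∪ {m}`
  have hcard : ∀ n : ℤ, (T (pt z (t + n))).ncard ≤ 3 → T (pt z (t + n)) = insert m (Q n) ∧
      (Q n).ncard = 2 := by
    intro n hn
    obtain ⟨q, hq, hq'⟩ := hQe n
    have h2 := (hq.two h).1
    rw [hq'] at h2
    have hsub : insert m (Q n) ⊆ T (pt z (t + n)) := insert_subset (hmem n) (hQs n)
    have h4 : (insert m (Q n)).ncard = (Q n).ncard + 1 :=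
      Set.ncard_insert_of_notMem (hmQ n) (Set.toFinite _)
    have h5 := Set.ncard_le_ncard hsub (Set.toFinite _)
    exact ⟨(Set.eq_of_subset_of_ncard_le hsub (by omega) (Set.toFinite _)).symm, by omega⟩
  obtain ⟨hT0, hc0⟩ := hcard k (by omega)
  obtain ⟨hT1, hc1⟩ := hcard (k + 1) (by omega)
  obtain ⟨c, hc, hc'⟩ := hQQ k
  -- a colour `s` with `T (y_(k+1)) ⊆ insert s (T y_k)`
  obtain ⟨s, hs, hsub⟩ : ∃ s ∈ Q (k + 1), Q (k + 1) ⊆ insert s (Q k) := by
    obtain ⟨x, y, hxy, hxyQ⟩ := Set.ncard_eq_two.1 hc1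
    have hc'' := hc'
    rw [hxyQ] at hc''
    rcases hc'' with rfl | h6
    · refine ⟨y, by rw [hxyQ]; simp, ?_⟩
      rw [hxyQ]
      rintro w (rfl | rfl)
      · exact Or.inr hc
      · exact Or.inl rfl
    · have h6 : c = y := h6
      subst h6
      refine ⟨x, by rw [hxyQ]; simp, ?_⟩
      rw [hxyQ]
      rintro w (rfl | h7)
      · exact Or.inl rfl
      · have h7 : w = c := h7
        rw [h7]; exact Or.inr hc
  have hsz : s ∈ T z := by
    rw [hz]
    rintro rfl
    exact hmQ (k + 1) hs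
  have hd : dist (pt z (t + ((k + 1 : ℤ) : ℝ))) (pt z (t + k)) = 1 := by
    rw [dist_comm, ← e1]
    exact dist_pt_one z (t + k)
  have hsub' : T (pt z (t + ((k + 1 : ℤ) : ℝ))) ⊆ insert s (T (pt z (t + k))) := by
    rw [hT0, hT1]
    rintro w (rfl | hw)
    · exact Or.inr (Or.inl rfl)
    · rcases hsub hw with rfl | h7
      · exact Or.inl rfl
      · exact Or.inr (Or.inr h7)
  rcases h.lemmaX hd (by omega) hsub' (dist_pt z _) (h.sub z hsz) with h8 | h8
  · have := dist_pt z (t + k)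
    rw [← h8, dist_self] at this
    exact zero_ne_one this
  · obtain ⟨-, h9⟩ := tri (dist_pt z (t + ((k + 1 : ℤ) : ℝ))) (dist_pt z (t + k))
    exact h9 h8

end Vale.Agent.P032.H89
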