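import Vale.Agent.P032.S5.H827.MBGap

/-!
# P032: the crossing lemma of helper827 for an interval without isolated switching directions

Copy of `exists_cross` (and `two_gaps`) of `S5/H827/MBGap.lean` with a local hypothesis.
-/

open Set Filter Topology Metric

noncomputable section

namespace Vale.Agent.P032.H89L

open Vale.Agent.P032.Six Vale.Agent.P032.S5.H767 Vale.Agent.P032.H89 Vale.Agent.P032.S5.H827

variable {U : Fin 6 → Set ℂ} {T : ℂ → Set (Fin 6)} {z : ℂ} {m : Fin 6}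

theorem split_loc {S : Set ℝ} {a b : ℝ}
    (hS : ∀ s ∈ S ∩ Ioo a b, ∀ ε > 0, ∃ s' ∈ S, s' ≠ s ∧ |s' - s| < ε)
    (h : (S ∩ Ioo a b).Nonempty) :
    ∃ c ∈ Ioo a b, (S ∩ Ioo a c).Nonempty ∧ (S ∩ Ioo c b).Nonempty := by
  obtain ⟨s, hs, ha, hb⟩ := h
  obtain ⟨s', hs', hne, hd⟩ := hS s ⟨hs, ha, hb⟩ (min (s - a) (b - s))
    (lt_min (by linarith) (by linarith))
  rw [lt_min_iff, abs_lt, abs_lt] at hd
  rcases lt_or_gt_of_ne hne with h1 | h1
  · exact ⟨(s' + s) / 2, ⟨by linarith, by linarith⟩, ⟨s', hs', by linarith, by linarith⟩,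
      ⟨s, hs, by linarith, hb⟩⟩
  · exact ⟨(s' + s) / 2, ⟨by linarith, by linarith⟩, ⟨s, hs, ha, by linarith⟩,
      ⟨s', hs', by linarith, by linarith⟩⟩

theorem gap_in_loc (h : Irr U T) (b : Prop) {u v : ℝ}
    (hS : ∀ s ∈ Sg T z m ∩ Ioo u v, ∀ ε > 0, ∃ s' ∈ Sg T z m, s' ≠ s ∧ |s' - s| < ε)
    (hne : (Sg T z m ∩ Ioo u v).Nonempty) : ∃ l r, u < l ∧ r < v ∧ Gap T z m b l r := by
  obtain ⟨c, hc, ⟨p1, h1⟩, h2⟩ := split_loc hS hne
  obtain ⟨d, hd, ⟨p2, h3⟩, ⟨p3, h4⟩⟩ := split_loc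
    (fun s hs => hS s ⟨hs.1, hc.1.trans hs.2.1, hs.2.2⟩) h2
  obtain ⟨l, r, hl, hr, hg⟩ := gap_three h b h1.1 h3.1 h4.1 (h1.2.2.trans h3.2.1)
    (h3.2.2.trans h4.2.1)
  exact ⟨l, r, h1.2.1.trans_le hl, hr.trans_lt h4.2.2, hg⟩

/-- two gaps of type `b` in a portion -/
theorem two_gaps_loc (h : Irr U T) {u v : ℝ}
    (hS : ∀ s ∈ Sg T z m ∩ Ioo u v, ∀ ε > 0, ∃ s' ∈ Sg T z m, s' ≠ s ∧ |s' - s| < ε) (b : Prop)
    (hne : (Sg T z m ∩ Ioo u v).Nonempty) : ∃ l r l' r', u < l ∧ r < l' ∧ r' < v ∧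
      Gap T z m b l r ∧ Gap T z m b l' r' := by
  obtain ⟨c, hc, h1, h2⟩ := split_loc hS hne
  obtain ⟨l, r, hl, hr, hg⟩ := gap_in_loc h b
    (fun s hs => hS s ⟨hs.1, hs.2.1, hs.2.2.trans hc.2⟩) h1
  obtain ⟨l', r', hl', hr', hg'⟩ := gap_in_loc h b
    (fun s hs => hS s ⟨hs.1, hc.1.trans hs.2.1, hs.2.2⟩) h2
  exact ⟨l, r, l', r', hl, hr.trans hl', hr', hg, hg'⟩

/-- **Crossing at both types.** `w` near `z`, `w ≠ z`: for each `k`, each side `e = ±1` and each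
type `b` there are a switching time `s` in the given interval and a time `τ` near `s` of type `b`
such that the point `xx z k (2 e) s τ` is at distance one from `w`. -/
theorem exists_cross_loc (h : Irr U T) {u v : ℝ}
    (hS : ∀ s ∈ Sg T z m ∩ Ioo u v, ∀ ε > 0, ∃ s' ∈ Sg T z m, s' ≠ s ∧ |s' - s| < ε)
    (hne : (Sg T z m ∩ Ioo u v).Nonempty) {η : ℝ} (h0 : 0 < η) (b : Prop) {e : ℝ}
    (he : e = 1 ∨ e = -1) (k : ℝ) :
    ∀ᶠ w in 𝓝 z, w ≠ z → ∃ s ∈ Sg T z m ∩ Ioo u v, ∃ τ, |τ - s| < η ∧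
      (∃ l r, τ ∈ Ioo l r ∧ ∀ t ∈ Ioo l r, Gen T z t → (m ∈ T (pt z t) ↔ b)) ∧
      dist (xx z k (2 * e) s τ) w = 1 := by
  obtain ⟨s0, hs0, hu, hv⟩ := hne
  have hS' : ∀ s ∈ Sg T z m ∩ Ioo (max u (s0 - 1)) (min v (s0 + 1)), ∀ ε > 0,
      ∃ s' ∈ Sg T z m, s' ≠ s ∧ |s' - s| < ε := fun s hs =>
    hS s ⟨hs.1, (le_max_left _ _).trans_lt hs.2.1, hs.2.2.trans_le (min_le_left _ _)⟩
  have hne' : (Sg T z m ∩ Ioo (max u (s0 - 1)) (min v (s0 + 1))).Nonempty :=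
    ⟨s0, hs0, max_lt hu (by linarith), lt_min hv (by linarith)⟩
  obtain ⟨l, r, l', r', hl, hrl, hr', hg, hg'⟩ := two_gaps_loc h hS' b hne'
  rw [max_lt_iff] at hl
  rw [lt_min_iff] at hr'
  have hlr := hg.lt
  have hlr' := hg'.lt
  set ε := min (min η (1 / 2)) (min (r - l) (r' - l')) with hε
  have hε0 : 0 < ε := lt_min (lt_min h0 (by norm_num)) (lt_min (by linarith) (by linarith))
  have hεη : ε ≤ η := (min_le_left _ _).trans (min_le_left _ _)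
  have hε1 : ε < 1 := ((min_le_left _ _).trans (min_le_right _ _)).trans_lt (by norm_num)
  have hεr : ε ≤ r - l := (min_le_right _ _).trans (min_le_left _ _)
  have hεr' : ε ≤ r' - l' := (min_le_right _ _).trans (min_le_right _ _)
  filter_upwards [crossing he hε0 hε1 z] with w hw hwz
  -- the conclusion from a crossing on a given side of an end of a gap
  have right : ∀ {x y : ℝ}, Gap T z m b x y → ε ≤ y - x → u < x → x < v →
      (∃ ρ ∈ Ioo (0 : ℝ) ε, dist (xx z k (2 * e) x (x + ρ)) w = 1) →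
      ∃ s ∈ Sg T z m ∩ Ioo u v, ∃ τ, |τ - s| < η ∧
      (∃ l r, τ ∈ Ioo l r ∧ ∀ t ∈ Ioo l r, Gen T z t → (m ∈ T (pt z t) ↔ b)) ∧
      dist (xx z k (2 * e) s τ) w = 1 := by
    rintro x y hxy hle hux hxv ⟨ρ, ⟨h3, h4⟩, h5⟩
    refine ⟨x, ⟨hxy.left, hux, hxv⟩, x + ρ, ?_, ⟨x, y, ⟨by linarith, by linarith⟩, hxy.ty⟩, h5⟩
    rw [add_sub_cancel_left, abs_of_pos h3]; linarith
  have left : ∀ {x y : ℝ}, Gap T z m b x y → ε ≤ y - x → u < y → y < v →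
      (∃ ρ ∈ Ioo (0 : ℝ) ε, dist (xx z k (2 * e) y (y - ρ)) w = 1) →
      ∃ s ∈ Sg T z m ∩ Ioo u v, ∃ τ, |τ - s| < η ∧
      (∃ l r, τ ∈ Ioo l r ∧ ∀ t ∈ Ioo l r, Gen T z t → (m ∈ T (pt z t) ↔ b)) ∧
      dist (xx z k (2 * e) s τ) w = 1 := by
    rintro x y hxy hle hux hxv ⟨ρ, ⟨h3, h4⟩, h5⟩
    refine ⟨y, ⟨hxy.right, hux, hxv⟩, y - ρ, ?_, ⟨x, y, ⟨by linarith, by linarith⟩, hxy.ty⟩, h5⟩
    rw [sub_sub_cancel_left, abs_neg, abs_of_pos h3]; linarith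
  rcases he with rfl | rfl
  · -- `i = 2`
    simp only [one_mul, mul_one] at hw right left ⊢
    by_cases c1 : 1 < dist (xx z k 2 l l) w
    · exact right hg hεr hl.1 (by linarith) ((hw k l).1 c1)
    by_cases c2 : dist (xx z k 2 r r) w < 1
    · exact left hg hεr (by linarith) (by linarith) ((hw k r).2 c2)
    by_cases c3 : 1 < dist (xx z k 2 l' l') w
    · exact right hg' hεr' (by linarith) (by linarith) ((hw k l').1 c3)
    exfalso
    rw [xx_two] at c1 c2 c3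
    exact c2 (arc_in_disc hwz (A := k + 1 + l) (B := k + 1 + r) (C := k + 1 + l') (by linarith)
      (by linarith) (by linarith) (not_lt.1 c1) (not_lt.1 c3))
  · -- `i = -2`
    have e1 : (2 : ℝ) * -1 = -2 := by norm_num
    simp only [neg_mul, one_mul, sub_neg_eq_add, ← sub_eq_add_neg] at hw
    rw [e1] at hw right left ⊢
    by_cases c1 : 1 < dist (xx z k (-2) r r) w
    · exact left hg hεr (by linarith) (by linarith) ((hw k r).1 c1)
    by_cases c2 : dist (xx z k (-2) l' l') w < 1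
    · exact right hg' hεr' (by linarith) (by linarith) ((hw k l').2 c2)
    by_cases c3 : 1 < dist (xx z k (-2) r' r') w
    · exact left hg' hεr' (by linarith) (by linarith) ((hw k r').1 c3)
    exfalso
    rw [xx_neg_two] at c1 c2 c3
    exact c2 (arc_in_disc hwz (A := k - 1 + r) (B := k - 1 + l') (C := k - 1 + r') (by linarith)
      (by linarith) (by linarith) (not_lt.1 c1) (not_lt.1 c3))

end Vale.Agent.P032.H89L
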