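import Vale.Agent.P032.H89.NonIso
import Vale.Agent.P032.H89.CrossLoc

/-!
# P032, alternating points: the isolated minimal pair

`exists_isoPair` : if the finite system `SysR m N Q 0` has no solution, and there is an alternating
point in the open set `O`, then there is one, `z`, with an isolated switching direction `s`, which
is isolated among the alternating points, and such that the pair `(z, s)` is minimal.
-/

open Set Filter Topology Metric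

noncomputable section

namespace Vale.Agent.P032.H89

open Vale.Agent.P032.Six Vale.Agent.P032.S5.H767 Vale.Agent.P032.S5.H843

variable {U : Fin 6 → Set ℂ} {T : ℂ → Set (Fin 6)} {z : ℂ} {m : Fin 6}

/-! ### Rotation of the finite system -/

theorem fr1 : ∀ j l : Fin 6, j + 1 + l = j + l + 1 := by decide
theorem fr2 : ∀ j l : Fin 6, j + 2 + l = j + l + 2 := by decide
theorem fr3 : ∀ j l : Fin 6, j + 3 + l = j + l + 3 := by decide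
theorem fr4 : ∀ j l : Fin 6, j - 1 + l = j + l - 1 := by decide
theorem fr5 : ∀ j l : Fin 6, j - 2 + l = j + l - 2 := by decide
theorem fr6 : ∀ j l : Fin 6, j ≠ 0 → j + l ≠ l := by decide
theorem fr7 : ∀ j l : Fin 6, j ≠ 0 + 3 → j + l ≠ l + 3 := by decide

/-- the type in the slot `l` -/
theorem SysR.alt_slot {N : Option (Fin 6) → Set (Fin 6)} {Q : Set State} {l₀ : Fin 6}
    (h : SysR m N Q l₀) {σ : State} (hσ : σ ∈ Q) (l : Fin 6) :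
    m ∈ σ none l ↔ (m ∈ σ none 0 ↔ Even l.val) := by
  have a0 : m ∈ σ none 0 ↔ m ∉ σ none 1 := h.alt σ hσ 0
  have a1 : m ∈ σ none 1 ↔ m ∉ σ none 2 := h.alt σ hσ 1
  have a2 : m ∈ σ none 2 ↔ m ∉ σ none 3 := h.alt σ hσ 2
  have a3 : m ∈ σ none 3 ↔ m ∉ σ none 4 := h.alt σ hσ 3
  have a4 : m ∈ σ none 4 ↔ m ∉ σ none 5 := h.alt σ hσ 4
  have e0 : Even ((0 : Fin 6).val) := by decide
  have e1 : ¬ Even ((1 : Fin 6).val) := by decide
  have e2 : Even ((2 : Fin 6).val) := by decide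
  have e3 : ¬ Even ((3 : Fin 6).val) := by decide
  have e4 : Even ((4 : Fin 6).val) := by decide
  have e5 : ¬ Even ((5 : Fin 6).val) := by decide
  fin_cases l
  · show m ∈ σ none 0 ↔ (m ∈ σ none 0 ↔ Even ((0 : Fin 6).val))
    tauto
  · show m ∈ σ none 1 ↔ (m ∈ σ none 0 ↔ Even ((1 : Fin 6).val))
    tauto
  · show m ∈ σ none 2 ↔ (m ∈ σ none 0 ↔ Even ((2 : Fin 6).val))
    tauto
  · show m ∈ σ none 3 ↔ (m ∈ σ none 0 ↔ Even ((3 : Fin 6).val))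
    tauto
  · show m ∈ σ none 4 ↔ (m ∈ σ none 0 ↔ Even ((4 : Fin 6).val))
    tauto
  · show m ∈ σ none 5 ↔ (m ∈ σ none 0 ↔ Even ((5 : Fin 6).val))
    tauto

/-- **Rotation.** -/
theorem SysR.rot {N : Option (Fin 6) → Set (Fin 6)} {Q : Set State} {l : Fin 6}
    (h : SysR m N Q l) : SysR m (fun p => N (p.map (· + l)))
      {σ' | ∃ σ ∈ Q, σ' = fun p j => σ (p.map (· + l)) (j + l)} 0 where
  nz := h.nz
  nv := fun k => h.nv (k + l)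
  nv' := fun k => h.nv' (k + l)
  ne := by
    rintro _ ⟨σ, hσ, rfl⟩ p j
    exact h.ne σ hσ _ _
  hex := by
    rintro _ ⟨σ, hσ, rfl⟩ p j
    show Disjoint (σ (p.map (· + l)) (j + l)) (σ (p.map (· + l)) (j + 1 + l))
    rw [fr1]; exact h.hex σ hσ _ _
  inz := by
    rintro _ ⟨σ, hσ, rfl⟩ k
    exact h.inz σ hσ (k + l)
  inv := by
    rintro _ ⟨σ, hσ, rfl⟩ k
    show σ (some (k + l)) (k + 3 + l) ⊆ N none
    rw [fr3]; exact h.inv σ hσ (k + l)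
  inr := by
    rintro _ ⟨σ, hσ, rfl⟩ k
    show σ (some (k + l)) (k + 2 + l) ⊆ N (some (k + 1 + l))
    rw [fr2, fr1]; exact h.inr σ hσ (k + l)
  inl := by
    rintro _ ⟨σ, hσ, rfl⟩ k
    show σ (some (k + l)) (k - 2 + l) ⊆ N (some (k - 1 + l))
    rw [fr5, fr4]; exact h.inl σ hσ (k + l)
  two := by
    rintro _ ⟨σ, hσ, rfl⟩ p j c hc hcp
    exact h.two σ hσ _ _ c hc hcp
  gap := by
    rintro _ ⟨σ, hσ, rfl⟩ p j c
    exact h.gap σ hσ _ _ c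
  rz := by
    rintro _ ⟨σ, hσ, rfl⟩ k j
    exact h.rz σ hσ (k + l) (j + l)
  rv := by
    rintro _ ⟨σ, hσ, rfl⟩ k j
    show Disjoint (σ (some (k + l)) (j + l)) (σ (some (k + 1 + l)) (j + l))
    rw [fr1]; exact h.rv σ hσ (k + l) (j + l)
  alt := by
    rintro _ ⟨σ, hσ, rfl⟩ j
    show m ∈ σ none (j + l) ↔ m ∉ σ none (j + 1 + l)
    rw [fr1]; exact h.alt σ hσ (j + l)
  biex := by
    rintro _ ⟨σ, hσ, rfl⟩ _ ⟨σ', hσ', rfl⟩ p j j' h1 h2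
    exact h.biex σ hσ σ' hσ' _ _ _ h1 h2
  deg := by
    intro p hp a ha
    obtain ⟨d, e, hd, he, hda, hea, hde, hq⟩ := h.deg _ hp a ha
    refine ⟨d, e, hd, he, hda, hea, hde, ?_⟩
    rintro _ ⟨σ, hσ, rfl⟩ j
    exact hq σ hσ (j + l)
  m3r := by
    intro a ha k h1 h2 t
    obtain ⟨σ, hσ, h3, h4⟩ := h.m3r a ha (k + l) (by rw [← fr1]; exact fr6 _ _ h1)
      (by rw [← fr1]; exact fr7 _ _ h2) (t ↔ Even l.val)
    refine ⟨_, ⟨σ, hσ, rfl⟩, ?_, ?_⟩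
    · show m ∈ σ none (0 + l) ↔ t
      rw [zero_add, h.alt_slot hσ l, h3]; tauto
    · show a ∉ σ (some (k + l)) (k + 2 + l)
      rw [fr2]; exact h4
  m3l := by
    intro a ha k h1 h2 t
    obtain ⟨σ, hσ, h3, h4⟩ := h.m3l a ha (k + l) (by rw [← fr4]; exact fr6 _ _ h1)
      (by rw [← fr4]; exact fr7 _ _ h2) (t ↔ Even l.val)
    refine ⟨_, ⟨σ, hσ, rfl⟩, ?_, ?_⟩
    · show m ∈ σ none (0 + l) ↔ t
      rw [zero_add, h.alt_slot hσ l, h3]; tauto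
    · show a ∉ σ (some (k + l)) (k - 2 + l)
      rw [fr5]; exact h4

/-! ### The local form of the perfect case -/

/-- **The rule `M3`**, local form. -/
theorem freq_m3_loc (h : Irr U T) {s₀ ρ : ℝ} (hρ : 0 < ρ)
    (hS : ∀ s ∈ Sg T z m, |s - s₀| < ρ → ∀ ε > 0, ∃ s' ∈ Sg T z m, s' ≠ s ∧ |s' - s| < ε)
    (hs₀ : s₀ ∈ Sg T z m) {a : Fin 6} (ha : a ∈ T z) (ha' : T z ≠ {a}) (k : Fin 6) {e : ℤ}
    (he : e = 1 ∨ e = -1) (b : Prop) :
    ∃ᶠ q : ℝ × ℝ in 𝓝 (s₀, s₀), q.1 ∈ Sg T z m ∧ JGen T z q.1 q.2 ∧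
      (m ∈ T (pt z q.2) ↔ b) ∧
      a ∉ T (pt (npt z q.1 (some k)) (q.2 + (((k.val : ℤ) + 2 * e : ℤ) : ℝ))) := by
  rw [frequently_iff]
  intro N hN
  obtain ⟨ε', hε', hball'⟩ := Metric.mem_nhds_iff.1 hN
  obtain ⟨ε, hε, he₁, he₂⟩ : ∃ ε > 0, ε ≤ ε' ∧ ε ≤ ρ :=
    ⟨min ε' ρ, lt_min hε' hρ, min_le_left _ _, min_le_right _ _⟩
  have hball : ball (s₀, s₀) ε ⊆ N := (Metric.ball_subset_ball he₁).trans hball'
  have he' : ((e : ℝ)) = 1 ∨ (e : ℝ) = -1 := by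
    rcases he with rfl | rfl
    · left; norm_num
    · right; norm_num
  have hcross := Vale.Agent.P032.H89L.exists_cross_loc h (z := z) (m := m) (u := s₀ - ε / 2)
    (v := s₀ + ε / 2) (by
      rw [sg_eq]
      rintro s ⟨hs, h1, h2⟩
      exact hS s hs (by rw [abs_lt]; constructor <;> linarith))
    ⟨s₀, by rw [sg_eq]; exact hs₀, by linarith, by linarith⟩ (η := ε / 2) (by linarith) b he'
    ((k.val : ℤ) : ℝ)
  obtain ⟨w, hw, hwc⟩ := ((h.pure z a ha).and_eventually hcross).exists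
  have hwz : w ≠ z := by
    rintro rfl
    exact ha' hw
  obtain ⟨s, ⟨hs, hsu, hsv⟩, τ, hτ, ⟨l, r, hlr, hty⟩, hd⟩ := hwc hwz
  rw [sg_eq] at hs
  have hwU : w ∈ U a := h.mem_of_single (by rw [hw])
  have hXτ : dist (pt (npt z s (some k)) (τ + (((k.val : ℤ) + 2 * e : ℤ) : ℝ))) w = 1 := by
    have e1 : pt (npt z s (some k)) (τ + (((k.val : ℤ) + 2 * e : ℤ) : ℝ)) =
        Vale.Agent.P032.S5.H827.xx z ((k.val : ℤ) : ℝ) (2 * (e : ℝ)) s τ := by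
      show pt (pt z (s + ((k.val : ℤ) : ℝ))) (τ + (((k.val : ℤ) + 2 * e : ℤ) : ℝ)) =
        pt (pt z (((k.val : ℤ) : ℝ) + s)) (((k.val : ℤ) : ℝ) + 2 * (e : ℝ) + τ)
      have e2 : s + ((k.val : ℤ) : ℝ) = ((k.val : ℤ) : ℝ) + s := by ring
      have e3 : τ + (((k.val : ℤ) + 2 * e : ℤ) : ℝ) = ((k.val : ℤ) : ℝ) + 2 * (e : ℝ) + τ := by
        push_cast; ring
      rw [e2, e3]
    rw [e1]; exact hd
  have hη : 0 < ε / 2 - |τ - s| := by linarith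
  obtain ⟨τ', h2, hg, h3, h4⟩ := perturb h (some k) ((k.val : ℤ) + 2 * e) hwU hXτ hlr hty hη
  refine ⟨(s, τ'), hball ?_, hs, hg, h3, h4⟩
  rw [Metric.mem_ball, Prod.dist_eq, max_lt_iff, Real.dist_eq, Real.dist_eq]
  have h5 : |τ' - s| < ε / 2 := by
    have h6 : τ' - s = (τ' - τ) + (τ - s) := by ring
    rw [h6]
    exact (abs_add_le _ _).trans_lt (by linarith)
  rw [abs_lt] at h5
  constructor
  · rw [abs_lt]; constructor <;> linarith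
  · rw [abs_lt]; constructor <;> linarith

/-- the finite system at a base with constant data, without isolated switching directions nearby -/
theorem sysR_of_base (h : Irr U T) (hmin : Mn U T) (hz : T z = {m}ᶜ) (hb : ¬ Biex T z)
    (hN : ∀ q, dist q z = 1 → ¬ Biex T q) {s₀ ρ : ℝ} (hs₀ : s₀ ∈ Sg T z m) (hρ : 0 < ρ)
    (hS : ∀ s ∈ Sg T z m, |s - s₀| < ρ → ∀ ε > 0, ∃ s' ∈ Sg T z m, s' ≠ s ∧ |s' - s| < ε)
    (hconst : ∀ᶠ s in 𝓝 s₀, s ∈ Sg T z m → nd T z s = nd T z s₀ ∧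
      ∀ p, Up T (npt z s p) = Up T (npt z s₀ p)) (l₀ : Fin 6) :
    ∃ Q, SysR m (nd T z s₀) Q l₀ := by
  have ha : Alt T z m := (biex_or_alt h hz).resolve_left hb
  refine ⟨{σ | (∀ p j, σ p j ⊆ nd T z s₀ p → σ p j ∈ Up T (npt z s₀ p)) ∧
      R1 m (nd T z s₀) σ}, ?_⟩
  have hnear : ∀ᶠ q : ℝ × ℝ in 𝓝 (s₀, s₀), |q.2 - q.1| < 1 := by
    have h1 : Continuous fun q : ℝ × ℝ => |q.2 - q.1| := by fun_prop
    have h2 := h1.tendsto (s₀, s₀)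
    simp only [sub_self, abs_zero] at h2
    exact h2.eventually (gt_mem_nhds one_pos)
  have hconst' : ∀ᶠ q : ℝ × ℝ in 𝓝 (s₀, s₀), q.1 ∈ Sg T z m → nd T z q.1 = nd T z s₀ ∧
      ∀ p, Up T (npt z q.1 p) = Up T (npt z s₀ p) := by
    have h1 : Tendsto (fun q : ℝ × ℝ => q.1) (𝓝 (s₀, s₀)) (𝓝 s₀) := continuous_fst.tendsto _
    exact h1.eventually hconst
  have hm3 : ∀ a, a ≠ m → ∀ (k : Fin 6) (t : Prop) (e : ℤ) (j : Fin 6), (e = 1 ∨ e = -1) →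
      ((j.val : ℤ) % 6 = ((k.val : ℤ) + 2 * e) % 6) →
      ∃ σ ∈ {σ | (∀ p j, σ p j ⊆ nd T z s₀ p → σ p j ∈ Up T (npt z s₀ p)) ∧
        R1 m (nd T z s₀) σ}, (m ∈ σ none 0 ↔ t) ∧ a ∉ σ (some k) j := by
    intro a ham k t e j he hj
    have haz : a ∈ T z := by rw [hz]; exact ham
    have haz' : T z ≠ {a} := by
      intro hcon
      have h1 : (T z).ncard = 5 := by
        rw [hz, Set.ncard_compl, Set.ncard_singleton, Nat.card_eq_fintype_card, Fintype.card_fin]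
      rw [hcon, Set.ncard_singleton] at h1
      omega
    obtain ⟨⟨s, τ⟩, ⟨hs, hg, ht, hak⟩, hin, hnr, hc⟩ :=
      ((freq_m3_loc h hρ hS hs₀ haz haz' k he t).and_eventually
        ((ev_in2 h z s₀).and (hnear.and hconst'))).exists
    obtain ⟨i1, i2, i3, i4⟩ := hin
    obtain ⟨c1, c2⟩ := hc hs
    refine ⟨st T z s τ, ⟨fun p j hsub => ?_, R1_of h hz ha hs hnr hg c1 i1 i2 i3 i4⟩, ?_, ?_⟩
    · rw [← c2 p]
      exact mem_Up hg (by rw [c1]; exact hsub)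
    · have e0 : st T z s τ none 0 = T (pt z τ) := by
        have e1 : τ + (((0 : Fin 6).val : ℤ) : ℝ) = τ := by simp
        show T (pt z (τ + (((0 : Fin 6).val : ℤ) : ℝ))) = T (pt z τ)
        rw [e1]
      rw [e0]; exact ht
    · rw [st_eq T z s τ (some k) j hj]
      exact hak
  exact sysR_core h hmin hz hb hN hs₀ (fun σ hσ => hσ)
    (fun a ham k _ _ t => hm3 a ham k t 1 (k + 2) (Or.inl rfl) (fin_add2 k))
    (fun a ham k _ _ t => hm3 a ham k t (-1) (k - 2) (Or.inr rfl) (fin_sub2 k))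

/-! ### Minimal data -/

/-- the size of the palettes of the seven nodes -/
def rk (T : ℂ → Set (Fin 6)) (z : ℂ) (s : ℝ) : ℕ := ∑ p : Option (Fin 6), (nd T z s p).ncard

/-- the number of sets without exact palette, of the seven nodes -/
def uk (T : ℂ → Set (Fin 6)) (z : ℂ) (s : ℝ) : ℕ :=
  ∑ p : Option (Fin 6), (Up T (npt z s p))ᶜ.ncard

/-- the switching pairs in `O` -/
def Prs (T : ℂ → Set (Fin 6)) (O : Set ℂ) : Set (Fin 6 × ℂ × ℝ) :=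
  {q | q.2.1 ∈ O ∧ T q.2.1 = {q.1}ᶜ ∧ ¬ Biex T q.2.1 ∧ q.2.2 ∈ Sg T q.2.1 q.1}

theorem exists_min (h : Irr U T) {O : Set ℂ} (hne : (Prs T O).Nonempty) :
    ∃ q₀ ∈ Prs T O, (∀ q ∈ Prs T O, rk T q₀.2.1 q₀.2.2 < rk T q.2.1 q.2.2 ∨
      rk T q₀.2.1 q₀.2.2 = rk T q.2.1 q.2.2 ∧ uk T q₀.2.1 q₀.2.2 ≤ uk T q.2.1 q.2.2) ∧
      ∀ᶠ q in 𝓝 q₀, q ∈ Prs T O → nd T q.2.1 q.2.2 = nd T q₀.2.1 q₀.2.2 ∧
        ∀ p, Up T (npt q.2.1 q.2.2 p) = Up T (npt q₀.2.1 q₀.2.2 p) := by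
  let f : Fin 6 × ℂ × ℝ → ℕ := fun q => rk T q.2.1 q.2.2
  let g : Fin 6 × ℂ × ℝ → ℕ := fun q => uk T q.2.1 q.2.2
  obtain ⟨_, ⟨q₁, hq₁, rfl⟩, hmin⟩ :=
    WellFounded.has_min (r := ((· < ·) : ℕ → ℕ → Prop)) wellFounded_lt _ (hne.image f)
  have hmin' : ∀ q ∈ Prs T O, f q₁ ≤ f q := fun q hq => not_lt.1 (hmin _ ⟨q, hq, rfl⟩)
  have hne2 : (Prs T O ∩ {q | f q = f q₁}).Nonempty := ⟨q₁, hq₁, rfl⟩
  obtain ⟨_, ⟨q₀, ⟨hq₀, hq₀f⟩, rfl⟩, hmax⟩ :=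
    WellFounded.has_min (r := ((· < ·) : ℕ → ℕ → Prop)) wellFounded_lt _ (hne2.image g)
  have hq₀f : f q₀ = f q₁ := hq₀f
  have hmax' : ∀ q ∈ Prs T O, f q = f q₁ → g q₀ ≤ g q := fun q hq hqf =>
    not_lt.1 (hmax _ ⟨q, ⟨hq, hqf⟩, rfl⟩)
  refine ⟨q₀, hq₀, fun q hq => ?_, ?_⟩
  · rcases (hmin' q hq).lt_or_eq with h1 | h1
    · left; show f q₀ < f q; omega
    · right; exact ⟨hq₀f.trans h1, hmax' q hq h1.symm⟩
  have hcont : ∀ p : Option (Fin 6), Continuous fun q : Fin 6 × ℂ × ℝ => npt q.2.1 q.2.2 p := by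
    rintro (_ | k)
    · exact continuous_fst.comp continuous_snd
    · show Continuous fun q : Fin 6 × ℂ × ℝ => pt q.2.1 (q.2.2 + ((k.val : ℤ) : ℝ))
      unfold pt
      exact (continuous_fst.comp continuous_snd).add (continuous_cis.comp (by fun_prop))
  have h1 : ∀ᶠ q in 𝓝 q₀, ∀ p, nd T q.2.1 q.2.2 p ⊆ nd T q₀.2.1 q₀.2.2 p :=
    eventually_all.2 fun p => ((hcont p).tendsto q₀).eventually (h.nhd _)
  have h6 : ∀ᶠ q in 𝓝 q₀, ∀ p, T (npt q.2.1 q.2.2 p) = T (npt q₀.2.1 q₀.2.2 p) →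
      Up T (npt q₀.2.1 q₀.2.2 p) ⊆ Up T (npt q.2.1 q.2.2 p) :=
    eventually_all.2 fun p => ((hcont p).tendsto q₀).eventually (ev_Up h _)
  filter_upwards [h1, h6] with q hq hq6 hqP
  have h4 : ∀ p ∈ (Finset.univ : Finset (Option (Fin 6))),
      (nd T q.2.1 q.2.2 p).ncard ≤ (nd T q₀.2.1 q₀.2.2 p).ncard :=
    fun p _ => Set.ncard_le_ncard (hq p) (Set.toFinite _)
  have h5 : f q = f q₀ := le_antisymm (Finset.sum_le_sum h4) (hq₀f.trans_le (hmin' q hqP))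
  have e0 : nd T q.2.1 q.2.2 = nd T q₀.2.1 q₀.2.2 := by
    funext p
    exact Set.eq_of_subset_of_ncard_le (hq p)
      ((Finset.sum_eq_sum_iff_of_le h4).1 h5 p (Finset.mem_univ p)).ge (Set.toFinite _)
  refine ⟨e0, ?_⟩
  have hs' : ∀ p, Up T (npt q₀.2.1 q₀.2.2 p) ⊆ Up T (npt q.2.1 q.2.2 p) :=
    fun p => hq6 p (congrFun e0 p)
  have h8 : ∀ p ∈ (Finset.univ : Finset (Option (Fin 6))),
      (Up T (npt q.2.1 q.2.2 p))ᶜ.ncard ≤ (Up T (npt q₀.2.1 q₀.2.2 p))ᶜ.ncard :=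
    fun p _ => Set.ncard_le_ncard (compl_subset_compl.2 (hs' p)) (Set.toFinite _)
  have h9 : g q = g q₀ := le_antisymm (Finset.sum_le_sum h8)
    (hmax' q hqP (h5.trans hq₀f))
  intro p
  have h10 := (Finset.sum_eq_sum_iff_of_le h8).1 h9 p (Finset.mem_univ p)
  exact compl_injective (Set.eq_of_subset_of_ncard_le (compl_subset_compl.2 (hs' p)) h10.ge
    (Set.toFinite _))

/-- an isolated, minimal switching pair in the open set `O` -/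
structure IsoPair (T : ℂ → Set (Fin 6)) (O : Set ℂ) (m : Fin 6) (z : ℂ) (s : ℝ) : Prop where
  mem : z ∈ O
  pal : T z = {m}ᶜ
  nb : ¬ Biex T z
  sw : s ∈ Sg T z m
  /-- `s` is isolated -/
  iso : ∃ ε > 0, ∀ s' ∈ Sg T z m, |s' - s| < ε → s' = s
  /-- `z` is isolated -/
  isoz : ∃ ε > 0, ∀ z' m', dist z' z < ε → T z' = {m'}ᶜ → ¬ Biex T z' → z' = z
  /-- minimality -/
  min : ∀ m' z' s', z' ∈ O → T z' = {m'}ᶜ → ¬ Biex T z' → s' ∈ Sg T z' m' →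
    rk T z s < rk T z' s' ∨ rk T z s = rk T z' s' ∧ uk T z s ≤ uk T z' s'

/-- **The isolated minimal pair.** -/
theorem exists_isoPair (h : Irr U T) (hmin : Mn U T)
    (F : ∀ (m : Fin 6) (N : Option (Fin 6) → Set (Fin 6)) (Q : Set State), SysR m N Q 0 → False)
    {O : Set ℂ} (hO : IsOpen O)
    (hW : ∀ y ∈ O, ∀ m, T y = {m}ᶜ → ¬ Biex T y → ∀ q, dist q y = 1 → ¬ Biex T q)
    {y : ℂ} {m₁ : Fin 6} (hy : y ∈ O) (hm₁ : T y = {m₁}ᶜ) (hb₁ : ¬ Biex T y) :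
    ∃ m z s, IsoPair T O m z s := by
  have F' : ∀ (m : Fin 6) (N : Option (Fin 6) → Set (Fin 6)) (Q : Set State) (l : Fin 6),
      SysR m N Q l → False := fun m N Q l hs => F m _ _ hs.rot
  obtain ⟨s₁, hs₁⟩ := Sg_nonempty h ((biex_or_alt h hm₁).resolve_left hb₁)
  obtain ⟨⟨m, z, s₀⟩, ⟨hzO, hz, hb, hs₀⟩, hm, hc⟩ :=
    exists_min h (O := O) ⟨(m₁, y, s₁), hy, hm₁, hb₁, hs₁⟩
  -- constancy for the colour `m`
  have hcm : ∀ᶠ q : ℂ × ℝ in 𝓝 (z, s₀), q.1 ∈ {y | y ∈ O ∧ T y = {m}ᶜ ∧ ¬ Biex T y} →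
      q.2 ∈ Sg T q.1 m → nd T q.1 q.2 = nd T z s₀ ∧
      ∀ p, Up T (npt q.1 q.2 p) = Up T (npt z s₀ p) := by
    have h1 : Tendsto (fun q : ℂ × ℝ => ((m, q) : Fin 6 × ℂ × ℝ)) (𝓝 (z, s₀)) (𝓝 (m, z, s₀)) := by
      have h2 : Continuous fun q : ℂ × ℝ => ((m, q) : Fin 6 × ℂ × ℝ) :=
        continuous_const.prodMk continuous_id
      exact h2.tendsto _
    filter_upwards [h1.eventually hc] with q hq hq1 hq2
    exact hq ⟨hq1.1, hq1.2.1, hq1.2.2, hq2⟩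
  have hNz := hW z hzO m hz hb
  -- the centre is isolated
  have hisoz : ∃ ε > 0, ∀ y' ∈ {y | y ∈ O ∧ T y = {m}ᶜ ∧ ¬ Biex T y}, dist y' z < ε → y' = z := by
    by_contra hcon
    push Not at hcon
    obtain ⟨Q, l₀, hQ⟩ := sysR_of_pair h hmin (X := {y | y ∈ O ∧ T y = {m}ᶜ ∧ ¬ Biex T y})
      (fun y hy => ⟨hy.2.1, hy.2.2, hW y hy.1 m hy.2.1 hy.2.2⟩) ⟨hzO, hz, hb⟩ hs₀ hcm
      (fun ε hε => by
        obtain ⟨y', hy', h1, h2⟩ := hcon ε hε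
        exact ⟨y', hy', h2, h1⟩)
    exact F' m _ Q l₀ hQ
  -- the same data at near switching directions
  have hcs : ∀ᶠ s in 𝓝 s₀, s ∈ Sg T z m → nd T z s = nd T z s₀ ∧
      ∀ p, Up T (npt z s p) = Up T (npt z s₀ p) := by
    have h1 : Tendsto (fun s : ℝ => ((z, s) : ℂ × ℝ)) (𝓝 s₀) (𝓝 (z, s₀)) := by
      have h2 : Continuous fun s : ℝ => ((z, s) : ℂ × ℝ) := continuous_const.prodMk continuous_id
      exact h2.tendsto _
    filter_upwards [h1.eventually hcm] with s hs hsS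
    exact hs ⟨hzO, hz, hb⟩ hsS
  obtain ⟨ρ, hρ, hball⟩ := Metric.eventually_nhds_iff.1 hcs
  -- an isolated switching direction
  obtain ⟨s, hs, hsρ, ε, hε, hiso⟩ : ∃ s ∈ Sg T z m, |s - s₀| < ρ ∧ ∃ ε > 0,
      ∀ s' ∈ Sg T z m, |s' - s| < ε → s' = s := by
    by_contra hcon
    push Not at hcon
    obtain ⟨Q, hQ⟩ := sysR_of_base h hmin hz hb hNz hs₀ hρ (fun s hs hsρ ε hε => by
      obtain ⟨s', hs', h1, h2⟩ := hcon s hs hsρ ε hε
      exact ⟨s', hs', h2, h1⟩) hcs 0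
    exact F' m _ Q 0 hQ
  obtain ⟨e1, e2⟩ := hball (y := s) (by rw [Real.dist_eq]; exact hsρ) hs
  have hrk : rk T z s = rk T z s₀ := by unfold rk; rw [e1]
  have huk : uk T z s = uk T z s₀ := by
    unfold uk
    exact Finset.sum_congr rfl fun p _ => by rw [e2 p]
  obtain ⟨ε', hε', hisoz'⟩ := hisoz
  have hOz : ∀ᶠ y in 𝓝 z, y ∈ O := hO.mem_nhds hzO
  obtain ⟨ε₂, hε₂, hball₂⟩ := Metric.eventually_nhds_iff.1 (hOz.and (h.nhd z))
  refine ⟨m, z, s, hzO, hz, hb, hs, ⟨ε, hε, hiso⟩, ⟨min ε' ε₂, lt_min hε' hε₂,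
    fun z' m' hd hz' hb' => ?_⟩, fun m' z' s' h1 h2 h3 h4 => ?_⟩
  · rw [lt_min_iff] at hd
    obtain ⟨hzO', hsub⟩ := hball₂ hd.2
    have hmm : m' = m := by
      by_contra hne
      have h5 : m ∈ T z' := by rw [hz']; exact fun h6 => hne h6.symm
      have h6 := hsub h5
      rw [hz] at h6
      exact h6 rfl
    subst hmm
    exact hisoz' z' ⟨hzO', hz', hb'⟩ hd.1
  · have h5 := hm (m', z', s') ⟨h1, h2, h3, h4⟩
    rw [hrk, huk]
    exact h5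

end Vale.Agent.P032.H89
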