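import Vale.Agent.P032.H89.Const
import Vale.Agent.P032.S5.H827.MBGap

/-!
# P032, alternating points: no isolated switching directions

* `jgen_exists` : jointly generic times are dense at every base,
* `freq_m3` : the rule `M3` (from helper827's `exists_cross`),
* `exists_sys` : an alternating point without isolated switching directions gives a `Sys`.
-/

open Set Filter Topology Metric

noncomputable section

namespace Vale.Agent.P032.H89

open Vale.Agent.P032.Six Vale.Agent.P032.S5.H767 Vale.Agent.P032.S5.H843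

variable {U : Fin 6 → Set ℂ} {T : ℂ → Set (Fin 6)} {z : ℂ}

theorem Lc.open {s : ℝ} (h : Lc T z s) : ∀ᶠ v in 𝓝 s, Lc T z v := by
  have h1 : ∀ᶠ v in 𝓝 s, T (pt z v) = T (pt z s) := h
  filter_upwards [eventually_eventually_nhds.2 h1, h1] with v hv hv'
  show ∀ᶠ w in 𝓝 v, T (pt z w) = T (pt z v)
  rw [hv']
  exact hv

theorem gen_of_fin {t : ℝ} (h4 : ∀ j : Fin 6, Lc T z (t + (j.val : ℤ))) : Gen T z t := by
  intro k
  have hk : k = (k % 6) + 6 * (k / 6) := (Int.emod_add_mul_ediv k 6).symm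
  have hk0 : 0 ≤ k % 6 := Int.emod_nonneg _ (by norm_num)
  have hk6 : k % 6 < 6 := Int.emod_lt_of_pos _ (by norm_num)
  have h5 := h4 ⟨(k % 6).toNat, by omega⟩
  have h6 : (((k % 6).toNat : ℤ) : ℝ) = ((k % 6 : ℤ) : ℝ) := by
    rw [Int.toNat_of_nonneg hk0]
  have h7 := lc_int (k / 6) h5
  have h8 : t + (((k % 6).toNat : ℤ) : ℝ) + 6 * ((k / 6 : ℤ) : ℝ) = t + k := by
    rw [h6]
    conv_rhs => rw [hk]
    push_cast
    ring
  rw [← h8]
  exact h7

theorem isOpen_Gen (T : ℂ → Set (Fin 6)) (z : ℂ) : IsOpen {t | Gen T z t} := by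
  rw [isOpen_iff_mem_nhds]
  intro t ht
  have h1 : ∀ j : Fin 6, ∀ᶠ v in 𝓝 t, Lc T z (v + ((j.val : ℤ) : ℝ)) := by
    intro j
    have h2 : Continuous fun v : ℝ => v + ((j.val : ℤ) : ℝ) := by fun_prop
    exact (h2.tendsto t).eventually (ht (j.val : ℤ)).open
  filter_upwards [eventually_all.2 h1] with v hv
  exact gen_of_fin hv

theorem dense_Gen (h : Irr U T) (z : ℂ) : Dense {t | Gen T z t} := by
  rw [dense_iff_inter_open]
  intro O hO hne
  obtain ⟨t, ht, hg⟩ := gen_exists h z hO hne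
  exact ⟨t, ht, hg⟩

/-- **Jointly generic times.** -/
theorem jgen_exists (h : Irr U T) (z : ℂ) (s : ℝ) {O : Set ℝ} (hO : IsOpen O)
    (hne : O.Nonempty) : ∃ τ ∈ O, JGen T z s τ := by
  have hd : Dense (⋂ p : Option (Fin 6), {t | Gen T (npt z s p) t}) :=
    dense_iInter_of_isOpen (fun p => isOpen_Gen T _) fun p => dense_Gen h _
  obtain ⟨τ, hτ, hg⟩ := (dense_iff_inter_open.1 hd) O hO hne
  exact ⟨τ, hτ, fun p => mem_iInter.1 hg p⟩

theorem sg_eq (T : ℂ → Set (Fin 6)) (z : ℂ) (m : Fin 6) :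
    Vale.Agent.P032.S5.H827.Sg T z m = Sg T z m := by
  unfold Vale.Agent.P032.S5.H827.Sg Sg Vale.Agent.P032.S5.H827.Ty
  simp only [iff_true, iff_false]

/-- **The rule `M3`.** -/
theorem freq_m3 (h : Irr U T) {m : Fin 6} (hS : Vale.Agent.P032.S5.H827.NoIso (Sg T z m)) {s₀ : ℝ}
    (hs₀ : s₀ ∈ Sg T z m) {a : Fin 6} (ha : a ∈ T z) (ha' : T z ≠ {a}) (k : Fin 6) {e : ℤ}
    (he : e = 1 ∨ e = -1) (b : Prop) :
    ∃ᶠ q : ℝ × ℝ in 𝓝 (s₀, s₀), q.1 ∈ Sg T z m ∧ JGen T z q.1 q.2 ∧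
      (m ∈ T (pt z q.2) ↔ b) ∧
      a ∉ T (pt (npt z q.1 (some k)) (q.2 + (((k.val : ℤ) + 2 * e : ℤ) : ℝ))) := by
  rw [frequently_iff]
  intro N hN
  obtain ⟨ε, hε, hball⟩ := Metric.mem_nhds_iff.1 hN
  have he' : ((e : ℝ)) = 1 ∨ (e : ℝ) = -1 := by
    rcases he with rfl | rfl
    · left; norm_num
    · right; norm_num
  have hcross := Vale.Agent.P032.S5.H827.exists_cross h (z := z) (m := m) (u := s₀ - ε / 2)
    (v := s₀ + ε / 2) (by rw [sg_eq]; exact hS)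
    ⟨s₀, by rw [sg_eq]; exact hs₀, by linarith, by linarith⟩ (η := ε / 2) (by linarith) b he'
    ((k.val : ℤ) : ℝ)
  obtain ⟨w, hw, hwc⟩ := ((h.pure z a ha).and_eventually hcross).exists
  have hwz : w ≠ z := by
    rintro rfl
    exact ha' hw
  obtain ⟨s, ⟨hs, hsu, hsv⟩, τ, hτ, ⟨l, r, hlr, hty⟩, hd⟩ := hwc hwz
  rw [sg_eq] at hs
  have hwU : w ∈ U a := h.mem_of_single (by rw [hw])
  set X : ℝ → ℂ := fun t => pt (npt z s (some k)) (t + (((k.val : ℤ) + 2 * e : ℤ) : ℝ)) with hX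
  have hXc : Continuous X := (continuous_pt _).comp (by fun_prop)
  have hXτ : dist (X τ) w = 1 := by
    have e1 : X τ = Vale.Agent.P032.S5.H827.xx z ((k.val : ℤ) : ℝ) (2 * (e : ℝ)) s τ := by
      show pt (pt z (s + ((k.val : ℤ) : ℝ))) (τ + (((k.val : ℤ) + 2 * e : ℤ) : ℝ)) =
        pt (pt z (((k.val : ℤ) : ℝ) + s)) (((k.val : ℤ) : ℝ) + 2 * (e : ℝ) + τ)
      have e2 : s + ((k.val : ℤ) : ℝ) = ((k.val : ℤ) : ℝ) + s := by ring
      have e3 : τ + (((k.val : ℤ) + 2 * e : ℤ) : ℝ) = ((k.val : ℤ) : ℝ) + 2 * (e : ℝ) + τ := by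
        push_cast; ring
      rw [e2, e3]
    rw [e1]; exact hd
  have hO : IsOpen {t : ℝ | t ∈ Ioo l r ∧ |t - s| < ε / 2 ∧ w + (X t - X τ) ∈ U a} := by
    have o1 : IsOpen {t : ℝ | |t - s| < ε / 2} :=
      isOpen_lt (by fun_prop) continuous_const
    have o2 : IsOpen {t : ℝ | w + (X t - X τ) ∈ U a} :=
      (h.mx.isOpen a).preimage (f := fun t : ℝ => w + (X t - X τ))
        (continuous_const.add (hXc.sub continuous_const))
    exact isOpen_Ioo.inter (o1.inter o2)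
  obtain ⟨τ', ⟨h1, h2, h3⟩, hg⟩ := jgen_exists h z s hO
    ⟨τ, hlr, hτ, by rw [sub_self, add_zero]; exact hwU⟩
  refine ⟨(s, τ'), hball ?_, hs, hg, hty τ' h1 (hg none), ?_⟩
  · rw [Metric.mem_ball, Prod.dist_eq, max_lt_iff, Real.dist_eq, Real.dist_eq]
    rw [abs_lt] at h2
    constructor
    · rw [abs_lt]; constructor <;> linarith
    · rw [abs_lt]; constructor <;> linarith
  · intro hcon
    refine h.mx.notMem' h3 ?_ (h.sub _ hcon)
    have e1 : dist (w + (X τ' - X τ)) (X τ') = dist (X τ) w := by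
      rw [dist_eq_norm, dist_eq_norm, ← norm_neg]
      congr 1; ring
    have e2 : dist (w + (X τ' - X τ)) (X τ') = 1 := e1.trans hXτ
    exact e2

/-- near `(s₀, s₀)` the letters directed to a named node are inside its palette at `s₀` -/
theorem ev_in2 (h : Irr U T) (z : ℂ) (s₀ : ℝ) : ∀ᶠ q : ℝ × ℝ in 𝓝 (s₀, s₀),
    (∀ k : Fin 6, st T z q.1 q.2 none k ⊆ nd T z s₀ (some k)) ∧
    (∀ k : Fin 6, st T z q.1 q.2 (some k) (k + 3) ⊆ nd T z s₀ none) ∧
    (∀ k : Fin 6, st T z q.1 q.2 (some k) (k + 2) ⊆ nd T z s₀ (some (k + 1))) ∧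
    (∀ k : Fin 6, st T z q.1 q.2 (some k) (k - 2) ⊆ nd T z s₀ (some (k - 1))) := by
  have key : ∀ (p : Option (Fin 6)) (n : ℤ), ∀ᶠ q : ℝ × ℝ in 𝓝 (s₀, s₀),
      T (pt (npt z q.1 p) (q.2 + n)) ⊆ T (pt (npt z s₀ p) (s₀ + n)) := by
    intro p n
    have h1 : Continuous fun q : ℝ × ℝ => pt (npt z q.1 p) (q.2 + n) := by
      have h2 : Continuous fun q : ℝ × ℝ => npt z q.1 p := (continuous_npt z p).comp continuous_fst
      unfold pt
      exact h2.add (continuous_cis.comp (by fun_prop))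
    exact (h1.tendsto (s₀, s₀)).eventually (h.nhd _)
  refine Filter.Eventually.and ?_ (Filter.Eventually.and ?_ (Filter.Eventually.and ?_ ?_))
  · exact eventually_all.2 fun k => key none k.val
  · refine eventually_all.2 fun k => (key (some k) (k.val + 3)).mono fun q hq => ?_
    rw [st_eq T z q.1 q.2 (some k) (k + 3) (fin_add3 k)]
    refine hq.trans (le_of_eq ?_)
    have e : s₀ + (((k.val : ℤ) + 3 : ℤ) : ℝ) = s₀ + ((k.val : ℤ) : ℝ) + 3 := by push_cast; ring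
    rw [e]
    exact congrArg T (pt_back z _)
  · refine eventually_all.2 fun k => (key (some k) (k.val + 2)).mono fun q hq => ?_
    rw [st_eq T z q.1 q.2 (some k) (k + 2) (fin_add2 k)]
    refine hq.trans (le_of_eq ?_)
    have e : s₀ + (((k.val : ℤ) + 2 : ℤ) : ℝ) = s₀ + ((k.val : ℤ) : ℝ) + 2 := by push_cast; ring
    unfold nd
    rw [e, npt_eq z s₀ (k + 1) (fin_add1 k)]
    refine congrArg T ((pt_right z _).trans ?_)
    congr 1; push_cast; ring
  · refine eventually_all.2 fun k => (key (some k) (k.val - 2)).mono fun q hq => ?_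
    rw [st_eq T z q.1 q.2 (some k) (k - 2) (fin_sub2 k)]
    refine hq.trans (le_of_eq ?_)
    have e : s₀ + (((k.val : ℤ) - 2 : ℤ) : ℝ) = s₀ + ((k.val : ℤ) : ℝ) - 2 := by push_cast; ring
    unfold nd
    rw [e, npt_eq z s₀ (k - 1) (fin_sub1 k)]
    refine congrArg T ((pt_left z _).trans ?_)
    congr 1; push_cast; ring

/-- **The finite system at an alternating point without isolated switching directions.** -/
theorem exists_sys (h : Irr U T) (hmin : Mn U T) {m : Fin 6} (hz : T z = {m}ᶜ)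
    (hb : ¬ Biex T z) (hN : ∀ q, dist q z = 1 → ¬ Biex T q)
    (hS : Vale.Agent.P032.S5.H827.NoIso (Sg T z m)) (hne : (Sg T z m).Nonempty) :
    ∃ N Q, Sys m N Q := by
  have ha : Alt T z m := (biex_or_alt h hz).resolve_left hb
  obtain ⟨s₀, hs₀, hconst⟩ := exists_const h z hne
  refine ⟨nd T z s₀, {σ | ∃ s τ, nd T z s = nd T z s₀ ∧ (∀ p, Up T (npt z s p) =
    Up T (npt z s₀ p)) ∧ JGen T z s τ ∧ st T z s τ = σ ∧ R1 m (nd T z s₀) σ}, ?_⟩
  have hnear : ∀ᶠ q : ℝ × ℝ in 𝓝 (s₀, s₀), |q.2 - q.1| < 1 := by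
    have h1 : Continuous fun q : ℝ × ℝ => |q.2 - q.1| := by fun_prop
    have h2 := h1.tendsto (s₀, s₀)
    simp only [sub_self, abs_zero] at h2
    exact h2.eventually (gt_mem_nhds one_pos)
  have hconst' : ∀ᶠ q : ℝ × ℝ in 𝓝 (s₀, s₀), q.1 ∈ Sg T z m → nd T z q.1 = nd T z s₀ ∧
      ∀ p, Up T (npt z q.1 p) = Up T (npt z s₀ p) := by
    have h1 : Tendsto (fun q : ℝ × ℝ => q.1) (𝓝 (s₀, s₀)) (𝓝 s₀) := continuous_fst.tendsto _
    exact h1.eventually (eventually_nhdsWithin_iff.1 hconst)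
  have hm3 : ∀ a, a ≠ m → ∀ (k : Fin 6) (t : Prop) (e : ℤ) (j : Fin 6), (e = 1 ∨ e = -1) →
      ((j.val : ℤ) % 6 = ((k.val : ℤ) + 2 * e) % 6) →
      ∃ σ ∈ {σ | ∃ s τ, nd T z s = nd T z s₀ ∧ (∀ p, Up T (npt z s p) =
        Up T (npt z s₀ p)) ∧ JGen T z s τ ∧ st T z s τ = σ ∧ R1 m (nd T z s₀) σ},
        (m ∈ σ none 0 ↔ t) ∧ a ∉ σ (some k) j := by
    intro a ham k t e j he hj
    have haz : a ∈ T z := by rw [hz]; exact ham
    have haz' : T z ≠ {a} := by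
      intro hcon
      have h1 : (T z).ncard = 5 := by
        rw [hz, Set.ncard_compl, Set.ncard_singleton, Nat.card_eq_fintype_card, Fintype.card_fin]
      rw [hcon, Set.ncard_singleton] at h1
      omega
    obtain ⟨⟨s, τ⟩, ⟨hs, hg, ht, hak⟩, hin, hnr, hc⟩ :=
      ((freq_m3 h hS hs₀ haz haz' k he t).and_eventually
        ((ev_in2 h z s₀).and (hnear.and hconst'))).exists
    obtain ⟨i1, i2, i3, i4⟩ := hin
    obtain ⟨c1, c2⟩ := hc hs
    refine ⟨st T z s τ, ⟨s, τ, c1, c2, hg, rfl, R1_of h hz ha hs hnr hg c1 i1 i2 i3 i4⟩, ?_, ?_⟩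
    · have e0 : st T z s τ none 0 = T (pt z τ) := by
        have e1 : τ + (((0 : Fin 6).val : ℤ) : ℝ) = τ := by simp
        show T (pt z (τ + (((0 : Fin 6).val : ℤ) : ℝ))) = T (pt z τ)
        rw [e1]
      rw [e0]; exact ht
    · rw [st_eq T z s τ (some k) j hj]
      exact hak
  refine sys_core h hmin hN hb hz hs₀ (fun σ hσ => hσ)
    (fun a ham k t => hm3 a ham k t 1 (k + 2) (Or.inl rfl) (fin_add2 k))
    (fun a ham k t => hm3 a ham k t (-1) (k - 2) (Or.inr rfl) (fin_sub2 k))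

end Vale.Agent.P032.H89
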