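import Vale.Agent.P032.H89.Sys7

/-!
# P032, alternating points: the finite system with restricted demands (helper283)

As `Sys`, but the demands are made only for the crossings near the nodes `V_l`, `l ≠ l₀, l₀ + 3`.
-/

namespace Vale.Agent.P032.H89

/-- node palettes `N` and a set `Q` of states with all rules, demands only near `V_l`,
`l ≠ l₀, l₀ + 3` -/
structure SysR (m : Fin 6) (N : Option (Fin 6) → Set (Fin 6)) (Q : Set State) (l₀ : Fin 6) :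
    Prop where
  nz : N none = {m}ᶜ
  nv : ∀ k, m ∈ N (some k)
  nv' : ∀ k, ∃ c, c ∉ N (some k)
  ne : ∀ σ ∈ Q, ∀ p j, (σ p j).Nonempty
  hex : ∀ σ ∈ Q, ∀ p j, Disjoint (σ p j) (σ p (j + 1))
  inz : ∀ σ ∈ Q, ∀ k, σ none k ⊆ N (some k)
  inv : ∀ σ ∈ Q, ∀ k, σ (some k) (k + 3) ⊆ N none
  inr : ∀ σ ∈ Q, ∀ k, σ (some k) (k + 2) ⊆ N (some (k + 1))
  inl : ∀ σ ∈ Q, ∀ k, σ (some k) (k - 2) ⊆ N (some (k - 1))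
  two : ∀ σ ∈ Q, ∀ p j, ∀ c ∈ σ p j, c ∈ N p → ∃ d ∈ σ p j, d ≠ c
  gap : ∀ σ ∈ Q, ∀ p j c, ∃ d ∈ N p, d ∉ σ p j ∧ d ≠ c
  rz : ∀ σ ∈ Q, ∀ k j, Disjoint (σ none j) (σ (some k) j)
  rv : ∀ σ ∈ Q, ∀ k j, Disjoint (σ (some k) j) (σ (some (k + 1)) j)
  alt : ∀ σ ∈ Q, ∀ j, m ∈ σ none j ↔ m ∉ σ none (j + 1)
  biex : ∀ σ ∈ Q, ∀ σ' ∈ Q, ∀ p j j', σ p j ⊆ N p → σ' p j' ⊆ N p → ¬ Disjoint (σ p j) (σ' p j')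
  deg : ∀ p, 4 ≤ (N p).ncard → ∀ a ∈ N p, ∃ d e, d ∈ N p ∧ e ∈ N p ∧ d ≠ a ∧ e ≠ a ∧ d ≠ e ∧
    ∀ σ ∈ Q, ∀ j, σ p j ≠ {a, d} ∧ σ p j ≠ {a, e}
  m3r : ∀ a, a ≠ m → ∀ k, k + 1 ≠ l₀ → k + 1 ≠ l₀ + 3 → ∀ t : Prop, ∃ σ ∈ Q,
    (m ∈ σ none 0 ↔ t) ∧ a ∉ σ (some k) (k + 2)
  m3l : ∀ a, a ≠ m → ∀ k, k - 1 ≠ l₀ → k - 1 ≠ l₀ + 3 → ∀ t : Prop, ∃ σ ∈ Q,
    (m ∈ σ none 0 ↔ t) ∧ a ∉ σ (some k) (k - 2)

theorem Sys.restrict {m : Fin 6} {N : Option (Fin 6) → Set (Fin 6)} {Q : Set State}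
    (h : Sys m N Q) (l₀ : Fin 6) : SysR m N Q l₀ :=
  { nz := h.nz, nv := h.nv, nv' := h.nv', ne := h.ne, hex := h.hex, inz := h.inz, inv := h.inv,
    inr := h.inr, inl := h.inl, two := h.two, gap := h.gap, rz := h.rz, rv := h.rv, alt := h.alt,
    biex := h.biex, deg := h.deg, m3r := fun a ha k _ _ t => h.m3r a ha k t,
    m3l := fun a ha k _ _ t => h.m3l a ha k t }

end Vale.Agent.P032.H89
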