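import Vale.Agent.P032.H89.Dich
import Vale.Agent.P032.H89.Sys7
import Vale.Agent.P032.S5.H843.Hand5

/-!
# P032: the rules at a switching direction of an alternating point (wild frame)

`Sg T z m` : the switching directions.  For `s ∈ Sg T z m` and generic `τ` near `s` the letters of
the seven points `z`, `pt z (s + k)` in the six directions `τ + j` satisfy the rules of `Sys` which
concern one direction `s`.
-/

open Set Filter Topology Metric

noncomputable section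

namespace Vale.Agent.P032.H89

open Vale.Agent.P032.Six Vale.Agent.P032.S5.H767 Vale.Agent.P032.S5.H843

variable {U : Fin 6 → Set ℂ} {T : ℂ → Set (Fin 6)} {z : ℂ}

/-! ### Geometry -/

theorem uv_inj {a b : ℝ} (h : cis (a * (Real.pi / 3)) = cis (b * (Real.pi / 3))) :
    ∃ n : ℤ, a - b = 6 * n := by
  unfold cis at h
  rw [Complex.exp_eq_exp_iff_exists_int] at h
  obtain ⟨n, hn⟩ := h
  refine ⟨n, ?_⟩
  have h1 : ((a * (Real.pi / 3) : ℝ) : ℂ) = ((b * (Real.pi / 3) + n * (2 * Real.pi) : ℝ) : ℂ) := by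
    have h2 : ((a * (Real.pi / 3) : ℝ) : ℂ) * Complex.I =
        ((b * (Real.pi / 3) + n * (2 * Real.pi) : ℝ) : ℂ) * Complex.I := by
      rw [hn]; push_cast; ring
    exact mul_right_cancel₀ Complex.I_ne_zero h2
  have h3 := Complex.ofReal_injective h1
  have h4 := Real.pi_pos
  have h5 : (a - b - 6 * n) * (Real.pi / 3) = 0 := by linear_combination h3
  rcases mul_eq_zero.1 h5 with h6 | h6
  · linarith
  · exfalso; linarith

theorem pt_back (z : ℂ) (a : ℝ) : pt (pt z a) (a + 3) = z := by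
  rw [pt_three]; unfold pt; ring

theorem pt_right (z : ℂ) (a : ℝ) : pt (pt z a) (a + 2) = pt z (a + 1) := by
  have h := pt_sum z a
  have h1 : pt (pt z a) (a + 2) = pt z a + pt z (a + 2) - z := by unfold pt; ring
  rw [h1, h]; ring

theorem pt_left (z : ℂ) (a : ℝ) : pt (pt z a) (a - 2) = pt z (a - 1) := by
  have h := pt_sum z (a - 2)
  have h1 : pt (pt z a) (a - 2) = pt z (a - 2) + pt z a - z := by unfold pt; ring
  have e1 : a - 2 + 2 = a := by ring
  have e2 : a - 2 + 1 = a - 1 := by ring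
  rw [e1, e2] at h
  rw [h1, h]; ring

/-- congruent slots -/
theorem pt_cong (p : ℂ) (τ : ℝ) {a b : ℤ} (h : a % 6 = b % 6) : pt p (τ + a) = pt p (τ + b) := by
  obtain ⟨n, hn⟩ : ∃ n : ℤ, a = b + 6 * n := by
    refine ⟨a / 6 - b / 6, ?_⟩
    have h1 := Int.emod_add_mul_ediv a 6
    have h2 := Int.emod_add_mul_ediv b 6
    omega
  rw [hn]
  push_cast
  rw [← add_assoc]
  exact pt_int p _ n

/-! ### The rules at one time -/

theorem Lc.circ {p : ℂ} {t : ℝ} (h : Lc T p t) :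
    ∀ᶠ q in 𝓝[sphere p 1] (pt p t), T q = T (pt p t) := by
  have h1 : ∀ᶠ v in 𝓝 t, (fun q => T q = T (pt p t)) (pt p v) := h
  exact ev_circle p h1

/-- **Rhombus.** -/
theorem rhomb (h : Irr U T) {p : ℂ} {a t : ℝ} (hl : Lc T p t) (hne : ∀ n : ℤ, a - t ≠ 3 * n) :
    Disjoint (T (pt p t)) (T (pt (pt p a) t)) := by
  rw [Set.disjoint_left]
  intro c hc hc'
  have hl' : ∀ᶠ q in 𝓝[sphere p 1] (pt p t), c ∈ T q := by
    refine hl.circ.mono fun q hq => ?_
    rw [hq]; exact hc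
  have h1 : dist (pt p t) (pt (pt p a) t) = 1 := by
    rw [dist_eq_norm]
    have e : pt p t - pt (pt p a) t = -cis (a * (Real.pi / 3)) := by unfold pt; ring
    rw [e, norm_neg, norm_cis]
  refine line_free h (dist_pt p t) hl' h1 (fun h2 => ?_) (fun h2 => ?_) (h.sub _ hc')
  · have h3 : cis (a * (Real.pi / 3)) = cis ((t + 3) * (Real.pi / 3)) := by
      have h4 := pt_three p t
      unfold pt at h2 h4
      linear_combination h2 - h4
    obtain ⟨n, hn⟩ := uv_inj h3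
    exact hne (2 * n + 1) (by push_cast; linarith)
  · have h3 : cis (a * (Real.pi / 3)) = cis (t * (Real.pi / 3)) := by
      unfold pt at h2
      linear_combination h2
    obtain ⟨n, hn⟩ := uv_inj h3
    exact hne (2 * n) (by push_cast; linarith)

/-- **Two colours.** -/
theorem letter_two (h : Irr U T) {p q : ℂ} (hq : dist q p = 1) {c : Fin 6} (hcp : c ∈ T p) : ∃ d ∈ T q, d ≠ c := by
  by_contra hcon
  push Not at hcon
  exact h.mx.notMem' (h.mem_of_single (i := c) fun d hd => hcon d hd) hq (h.sub p hcp)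

/-- **Gap.** -/
theorem letter_gap (h : Irr U T) {p : ℂ} (hp : p ∈ XX U) {t : ℝ} (hl : Lc T p t) (c : Fin 6) :
    ∃ d ∈ T p, d ∉ T (pt p t) ∧ d ≠ c := by
  have h2 : 2 ≤ (T p \ T (pt p t)).ncard := h.gap_two hp (dist_pt p t)
    (hl.circ.mono fun q' hq' => by rw [← hq']; exact h.sub q')
  by_contra hcon
  push Not at hcon
  have h3 : T p \ T (pt p t) ⊆ {c} := fun d hd => hcon d hd.1 hd.2
  have h4 := Set.ncard_le_ncard h3 (Set.toFinite _)
  rw [Set.ncard_singleton] at h4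
  omega

/-! ### Switching directions -/

/-- the switching directions of `z` with respect to the colour `m` -/
def Sg (T : ℂ → Set (Fin 6)) (z : ℂ) (m : Fin 6) : Set ℝ :=
  closure {t | Gen T z t ∧ m ∈ T (pt z t)} ∩ closure {t | Gen T z t ∧ m ∉ T (pt z t)}

theorem isClosed_Sg (T : ℂ → Set (Fin 6)) (z : ℂ) (m : Fin 6) : IsClosed (Sg T z m) :=
  isClosed_closure.inter isClosed_closure

/-- a locally constant time is no switching direction -/
theorem Lc.notMem_Sg {m : Fin 6} {t : ℝ} (h : Lc T z t) : t ∉ Sg T z m := by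
  rintro ⟨h1, h2⟩
  rw [mem_closure_iff_frequently] at h1 h2
  by_cases hm : m ∈ T (pt z t)
  · obtain ⟨v, hv, hv'⟩ := (h2.and_eventually h).exists
    exact hv.2 (hv' ▸ hm)
  · obtain ⟨v, hv, hv'⟩ := (h1.and_eventually h).exists
    exact hm (hv' ▸ hv.2)

theorem Gen.lc {t : ℝ} (h : Gen T z t) (k : ℤ) : Lc T z (t + k) := h k

theorem Gen.lc0 {t : ℝ} (h : Gen T z t) : Lc T z t := by
  have := h 0
  rwa [Int.cast_zero, add_zero] at this

/-- the type alternates -/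
theorem Alt.int {m : Fin 6} (ha : Alt T z m) {t : ℝ} (hg : Gen T z t) (k : ℤ) :
    (m ∈ T (pt z (t + k)) ↔ (m ∈ T (pt z t) ↔ Even k)) := by
  induction k using Int.induction_on with
  | zero => simp
  | succ n ih =>
    have h1 := ha _ (hg.shift n)
    have h2 : t + ((n : ℤ) : ℝ) + 1 = t + (((n : ℤ) + 1 : ℤ) : ℝ) := by push_cast; ring
    rw [h2] at h1
    have h3 : Even ((n : ℤ) + 1) ↔ ¬ Even (n : ℤ) := Int.even_add_one
    tauto
  | pred n ih =>
    have h1 := ha _ (hg.shift (-(n : ℤ) - 1))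
    have h2 : t + ((-(n : ℤ) - 1 : ℤ) : ℝ) + 1 = t + ((-(n : ℤ) : ℤ) : ℝ) := by push_cast; ring
    rw [h2] at h1
    have h3 : Even (-(n : ℤ)) ↔ ¬ Even (-(n : ℤ) - 1) := by
      have := Int.even_add_one (n := -(n : ℤ) - 1)
      rwa [sub_add_cancel] at this
    tauto

/-- both types accumulate at a switching direction, in every slot -/
theorem freq_in {m : Fin 6} (ha : Alt T z m) {s : ℝ} (hs : s ∈ Sg T z m) (k : ℤ) :
    ∃ᶠ t in 𝓝 s, Gen T z t ∧ m ∈ T (pt z (t + k)) := by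
  obtain ⟨hA, hB⟩ := hs
  rw [mem_closure_iff_frequently] at hA hB
  rcases Int.even_or_odd k with hk | hk
  · exact hA.mono fun t ht => ⟨ht.1, (ha.int ht.1 k).2 (iff_of_true ht.2 hk)⟩
  · exact hB.mono fun t ht => ⟨ht.1, (ha.int ht.1 k).2
      (iff_of_false ht.2 (Int.not_even_iff_odd.2 hk))⟩

theorem freq_out {m : Fin 6} (ha : Alt T z m) {s : ℝ} (hs : s ∈ Sg T z m) (k : ℤ) :
    ∃ᶠ t in 𝓝 s, Gen T z t ∧ m ∉ T (pt z (t + k)) := by
  obtain ⟨hA, hB⟩ := hs
  rw [mem_closure_iff_frequently] at hA hB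
  rcases Int.even_or_odd k with hk | hk
  · exact hB.mono fun t ht => ⟨ht.1, fun hm => ht.2 (((ha.int ht.1 k).1 hm).2 hk)⟩
  · exact hA.mono fun t ht => ⟨ht.1, fun hm => Int.not_even_iff_odd.2 hk
      (((ha.int ht.1 k).1 hm).1 ht.2)⟩

theorem tendsto_pt (z : ℂ) (s : ℝ) (k : ℤ) :
    Tendsto (fun t : ℝ => pt z (t + k)) (𝓝 s) (𝓝 (pt z (s + k))) := by
  have h2 : Continuous fun t : ℝ => pt z (t + (k : ℝ)) := (continuous_pt z).comp (by fun_prop)
  exact h2.tendsto s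

/-- `m` is a colour of the six neighbours in a switching direction -/
theorem mem_nb (h : Irr U T) {m : Fin 6} (ha : Alt T z m) {s : ℝ} (hs : s ∈ Sg T z m) (k : ℤ) :
    m ∈ T (pt z (s + k)) :=
  (h.closed m).mem_of_frequently_of_tendsto ((freq_in ha hs k).mono fun _ ht => ht.2)
    (tendsto_pt z s k)

/-- the centre and the six neighbours are in `XX` -/
theorem nb_XX (h : Irr U T) {m : Fin 6} (hz : T z = {m}ᶜ) (ha : Alt T z m) {s : ℝ}
    (hs : s ∈ Sg T z m) (k : ℤ) : pt z (s + k) ∈ XX U ∧ z ∈ XX U := by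
  obtain ⟨t, ⟨hg, hm⟩, hsub⟩ := ((freq_out ha hs k).and_eventually
    ((tendsto_pt z s k).eventually (h.nhd _))).exists
  obtain ⟨c, hc⟩ := h.ne (pt z (t + k))
  have hcz : c ∈ T z := by
    rw [hz]
    rintro rfl
    exact hm hc
  have hcv := hsub hc
  exact ⟨h.mem_XX (dist_pt z _) hcv (h.sub z hcz),
    h.mem_XX (by rw [dist_comm]; exact dist_pt z (s + k)) hcz (h.sub _ hcv)⟩

/-! ### The joint states -/

/-- the seven nodes -/
def npt (z : ℂ) (s : ℝ) : Option (Fin 6) → ℂ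
  | none => z
  | some k => pt z (s + ((k.val : ℤ) : ℝ))

/-- the state at the base `s` and the time `τ` -/
def st (T : ℂ → Set (Fin 6)) (z : ℂ) (s τ : ℝ) : State :=
  fun p j => T (pt (npt z s p) (τ + ((j.val : ℤ) : ℝ)))

/-- the palettes of the seven nodes -/
def nd (T : ℂ → Set (Fin 6)) (z : ℂ) (s : ℝ) : Option (Fin 6) → Set (Fin 6) :=
  fun p => T (npt z s p)

/-- jointly generic -/
def JGen (T : ℂ → Set (Fin 6)) (z : ℂ) (s τ : ℝ) : Prop :=
  ∀ p, Gen T (npt z s p) τ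

/-- the rules which concern one state at one base -/
structure R1 (m : Fin 6) (N : Option (Fin 6) → Set (Fin 6)) (σ : State) : Prop where
  ne : ∀ p j, (σ p j).Nonempty
  hex : ∀ p j, Disjoint (σ p j) (σ p (j + 1))
  inz : ∀ k, σ none k ⊆ N (some k)
  inv : ∀ k, σ (some k) (k + 3) ⊆ N none
  inr : ∀ k, σ (some k) (k + 2) ⊆ N (some (k + 1))
  inl : ∀ k, σ (some k) (k - 2) ⊆ N (some (k - 1))
  two : ∀ p j, ∀ c ∈ σ p j, c ∈ N p → ∃ d ∈ σ p j, d ≠ c
  gap : ∀ p j c, ∃ d ∈ N p, d ∉ σ p j ∧ d ≠ c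
  rz : ∀ k j, Disjoint (σ none j) (σ (some k) j)
  rv : ∀ k j, Disjoint (σ (some k) j) (σ (some (k + 1)) j)
  alt : ∀ j, m ∈ σ none j ↔ m ∉ σ none (j + 1)

theorem st_eq (T : ℂ → Set (Fin 6)) (z : ℂ) (s τ : ℝ) (p : Option (Fin 6)) (j : Fin 6) {n : ℤ}
    (h : (j.val : ℤ) % 6 = n % 6) : st T z s τ p j = T (pt (npt z s p) (τ + n)) := by
  unfold st
  rw [pt_cong _ τ h]

theorem npt_eq (z : ℂ) (s : ℝ) (k : Fin 6) {n : ℤ} (h : (k.val : ℤ) % 6 = n % 6) :
    npt z s (some k) = pt z (s + n) := pt_cong z s h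

theorem fin_add1 : ∀ j : Fin 6, (((j + 1 : Fin 6).val : ℤ)) % 6 = ((j.val : ℤ) + 1) % 6 := by
  decide

theorem fin_add2 : ∀ j : Fin 6, (((j + 2 : Fin 6).val : ℤ)) % 6 = ((j.val : ℤ) + 2) % 6 := by
  decide

theorem fin_add3 : ∀ j : Fin 6, (((j + 3 : Fin 6).val : ℤ)) % 6 = ((j.val : ℤ) + 3) % 6 := by
  decide

theorem fin_sub1 : ∀ j : Fin 6, (((j - 1 : Fin 6).val : ℤ)) % 6 = ((j.val : ℤ) - 1) % 6 := by
  decide

theorem fin_sub2 : ∀ j : Fin 6, (((j - 2 : Fin 6).val : ℤ)) % 6 = ((j.val : ℤ) - 2) % 6 := by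
  decide

/-- near `s` the letters directed to a named node are inside its palette -/
theorem ev_in (h : Irr U T) (z : ℂ) (s : ℝ) : ∀ᶠ τ in 𝓝 s,
    (∀ k : Fin 6, st T z s τ none k ⊆ nd T z s (some k)) ∧
    (∀ k : Fin 6, st T z s τ (some k) (k + 3) ⊆ nd T z s none) ∧
    (∀ k : Fin 6, st T z s τ (some k) (k + 2) ⊆ nd T z s (some (k + 1))) ∧
    (∀ k : Fin 6, st T z s τ (some k) (k - 2) ⊆ nd T z s (some (k - 1))) := by
  have key : ∀ (p : ℂ) (n : ℤ), ∀ᶠ τ in 𝓝 s, T (pt p (τ + n)) ⊆ T (pt p (s + n)) :=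
    fun p n => (tendsto_pt p s n).eventually (h.nhd _)
  refine Filter.Eventually.and ?_ (Filter.Eventually.and ?_ (Filter.Eventually.and ?_ ?_))
  · exact eventually_all.2 fun k => key z k.val
  · refine eventually_all.2 fun k => (key (npt z s (some k)) (k.val + 3)).mono fun τ hτ => ?_
    rw [st_eq T z s τ (some k) (k + 3) (fin_add3 k)]
    refine hτ.trans (le_of_eq ?_)
    have e : s + (((k.val : ℤ) + 3 : ℤ) : ℝ) = s + ((k.val : ℤ) : ℝ) + 3 := by push_cast; ring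
    rw [e]
    exact congrArg T (pt_back z _)
  · refine eventually_all.2 fun k => (key (npt z s (some k)) (k.val + 2)).mono fun τ hτ => ?_
    rw [st_eq T z s τ (some k) (k + 2) (fin_add2 k)]
    refine hτ.trans (le_of_eq ?_)
    have e : s + (((k.val : ℤ) + 2 : ℤ) : ℝ) = s + ((k.val : ℤ) : ℝ) + 2 := by push_cast; ring
    unfold nd
    rw [e, npt_eq z s (k + 1) (fin_add1 k)]
    refine congrArg T ((pt_right z _).trans ?_)
    congr 1; push_cast; ring
  · refine eventually_all.2 fun k => (key (npt z s (some k)) (k.val - 2)).mono fun τ hτ => ?_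
    rw [st_eq T z s τ (some k) (k - 2) (fin_sub2 k)]
    refine hτ.trans (le_of_eq ?_)
    have e : s + (((k.val : ℤ) - 2 : ℤ) : ℝ) = s + ((k.val : ℤ) : ℝ) - 2 := by push_cast; ring
    unfold nd
    rw [e, npt_eq z s (k - 1) (fin_sub1 k)]
    refine congrArg T ((pt_left z _).trans ?_)
    congr 1; push_cast; ring

/-- **The rules at one state**, node palettes `N`. -/
theorem R1_of (h : Irr U T) {m : Fin 6} (hz : T z = {m}ᶜ) (ha : Alt T z m) {s τ : ℝ}
    (hs : s ∈ Sg T z m) (hτ : |τ - s| < 1) (hg : JGen T z s τ)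
    {N : Option (Fin 6) → Set (Fin 6)} (hN : nd T z s = N)
    (i1 : ∀ k : Fin 6, st T z s τ none k ⊆ N (some k))
    (i2 : ∀ k : Fin 6, st T z s τ (some k) (k + 3) ⊆ N none)
    (i3 : ∀ k : Fin 6, st T z s τ (some k) (k + 2) ⊆ N (some (k + 1)))
    (i4 : ∀ k : Fin 6, st T z s τ (some k) (k - 2) ⊆ N (some (k - 1))) :
    R1 m N (st T z s τ) := by
  subst hN
  have hXX : ∀ p, npt z s p ∈ XX U := by
    rintro (_ | k)
    · exact (nb_XX h hz ha hs 0).2
    · exact (nb_XX h hz ha hs k.val).1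
  have hne : τ ≠ s := by
    rintro rfl
    exact (hg none).lc0.notMem_Sg hs
  have hint : ∀ a b : ℤ, ∀ n : ℤ, s + a - (τ + b) ≠ 3 * n := by
    intro a b n hn
    have h1 : τ - s = ((a - b - 3 * n : ℤ) : ℝ) := by push_cast; linarith
    rw [h1] at hτ
    have h2 : |(a - b - 3 * n : ℤ)| < 1 := by exact_mod_cast hτ
    have h3 : (a - b - 3 * n : ℤ) = 0 := Int.abs_lt_one_iff.1 h2
    rw [h3] at h1
    apply hne
    have h4 : ((0 : ℤ) : ℝ) = 0 := Int.cast_zero
    rw [h4] at h1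
    linarith
  refine ⟨fun p j => h.ne _, fun p j => ?_, i1, i2, i3, i4, fun p j c _ hcp => ?_,
    fun p j c => ?_, fun k j => ?_, fun k j => ?_, fun j => ?_⟩
  · rw [st_eq T z s τ p (j + 1) (fin_add1 j)]
    have h1 := gen_disjoint h ((hg p).shift (j.val : ℤ))
    have e : τ + ((j.val : ℤ) : ℝ) + 1 = τ + (((j.val : ℤ) + 1 : ℤ) : ℝ) := by push_cast; ring
    rwa [e] at h1
  · exact letter_two h (dist_pt _ _) hcp
  · exact letter_gap h (hXX p) ((hg p).lc (j.val : ℤ)) c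
  · exact rhomb h (p := z) (a := s + ((k.val : ℤ) : ℝ)) ((hg none).lc (j.val : ℤ))
      (hint _ _)
  · have h1 := rhomb h (p := npt z s (some k)) (a := s + (((k.val : ℤ) + 2 : ℤ) : ℝ))
      ((hg (some k)).lc (j.val : ℤ)) (hint _ _)
    have e : pt (npt z s (some k)) (s + (((k.val : ℤ) + 2 : ℤ) : ℝ)) = npt z s (some (k + 1)) := by
      rw [npt_eq z s (k + 1) (fin_add1 k)]
      have e1 : s + (((k.val : ℤ) + 2 : ℤ) : ℝ) = s + ((k.val : ℤ) : ℝ) + 2 := by push_cast; ring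
      rw [e1]
      refine (pt_right z _).trans ?_
      congr 1; push_cast; ring
    rw [e] at h1
    exact h1
  · rw [st_eq T z s τ none (j + 1) (fin_add1 j)]
    have h1 := ha _ ((hg none).shift (j.val : ℤ))
    have e : τ + ((j.val : ℤ) : ℝ) + 1 = τ + (((j.val : ℤ) + 1 : ℤ) : ℝ) := by push_cast; ring
    rw [e] at h1
    exact h1

/-- **The rules at one state**, `τ` near `s`. -/
theorem ev_R1 (h : Irr U T) {m : Fin 6} (hz : T z = {m}ᶜ) (ha : Alt T z m) {s : ℝ}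
    (hs : s ∈ Sg T z m) : ∀ᶠ τ in 𝓝 s, JGen T z s τ → R1 m (nd T z s) (st T z s τ) := by
  have hnear : ∀ᶠ τ in 𝓝 s, |τ - s| < 1 := by
    have := Metric.ball_mem_nhds s one_pos
    filter_upwards [this] with τ hτ
    rwa [Metric.mem_ball, Real.dist_eq] at hτ
  filter_upwards [ev_in h z s, hnear] with τ hin hτ hg
  obtain ⟨i1, i2, i3, i4⟩ := hin
  exact R1_of h hz ha hs hτ hg rfl i1 i2 i3 i4

/-! ### The rules for sets of states -/

/-- in a world without biexact points next to points of at least four colours, the neighbours of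
an alternating point are not biexact -/
theorem nb_five {q : ℂ} (hB : ∀ v, dist q v = 1 → 4 ≤ (T v).ncard → Biex T q → False)
    {m : Fin 6} (hz : T z = {m}ᶜ) (hq : dist q z = 1) : ¬ Biex T q := by
  intro hb
  refine hB z hq ?_ hb
  rw [hz, Set.ncard_compl, Set.ncard_singleton, Nat.card_eq_fintype_card, Fintype.card_fin]
  omega

/-- the seven nodes are not biexact -/
theorem npt_biex (hN : ∀ q, dist q z = 1 → ¬ Biex T q) (hb : ¬ Biex T z) (s : ℝ)
    (p : Option (Fin 6)) :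
    ¬ Biex T (npt z s p) := by
  rcases p with _ | k
  · exact hb
  · exact hN _ (dist_pt z _)

/-- **The system from a set of states**, all of which occur at the base `s` at times near `s`. -/
theorem sys_of (h : Irr U T) (hmin : Mn U T) (hN : ∀ q, dist q z = 1 → ¬ Biex T q)
    {m : Fin 6} (hz : T z = {m}ᶜ) (hb : ¬ Biex T z) {s : ℝ} (hs : s ∈ Sg T z m) {Q : Set State}
    (hQ : ∀ σ ∈ Q, ∃ᶠ τ in 𝓝 s, JGen T z s τ ∧ st T z s τ = σ)
    (m3r : ∀ a, a ≠ m → ∀ k (t : Prop), ∃ σ ∈ Q, (m ∈ σ none 0 ↔ t) ∧ a ∉ σ (some k) (k + 2))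
    (m3l : ∀ a, a ≠ m → ∀ k (t : Prop), ∃ σ ∈ Q, (m ∈ σ none 0 ↔ t) ∧ a ∉ σ (some k) (k - 2)) :
    Sys m (nd T z s) Q := by
  have ha : Alt T z m := (biex_or_alt h hz).resolve_left hb
  have hR : ∀ σ ∈ Q, ∃ τ, JGen T z s τ ∧ st T z s τ = σ ∧ R1 m (nd T z s) σ := by
    intro σ hσ
    obtain ⟨τ, ⟨hg, rfl⟩, hr⟩ := ((hQ σ hσ).and_eventually (ev_R1 h hz ha hs)).exists
    exact ⟨τ, hg, rfl, hr hg⟩
  refine ⟨hz, fun k => mem_nb h ha hs _, fun k => ?_, fun σ hσ => ?_, fun σ hσ => ?_,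
    fun σ hσ => ?_, fun σ hσ => ?_, fun σ hσ => ?_, fun σ hσ => ?_, fun σ hσ => ?_,
    fun σ hσ => ?_, fun σ hσ => ?_, fun σ hσ => ?_, fun σ hσ => ?_, ?_, ?_, m3r, m3l⟩
  · by_contra hcon
    push Not at hcon
    exact hN _ (dist_pt z _) (biex_six h hcon)
  · obtain ⟨-, -, -, hr⟩ := hR σ hσ; exact hr.ne
  · obtain ⟨-, -, -, hr⟩ := hR σ hσ; exact hr.hex
  · obtain ⟨-, -, -, hr⟩ := hR σ hσ; exact hr.inz
  · obtain ⟨-, -, -, hr⟩ := hR σ hσ; exact hr.inv
  · obtain ⟨-, -, -, hr⟩ := hR σ hσ; exact hr.inr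
  · obtain ⟨-, -, -, hr⟩ := hR σ hσ; exact hr.inl
  · obtain ⟨-, -, -, hr⟩ := hR σ hσ; exact hr.two
  · obtain ⟨-, -, -, hr⟩ := hR σ hσ; exact hr.gap
  · obtain ⟨-, -, -, hr⟩ := hR σ hσ; exact hr.rz
  · obtain ⟨-, -, -, hr⟩ := hR σ hσ; exact hr.rv
  · obtain ⟨-, -, -, hr⟩ := hR σ hσ; exact hr.alt
  · intro σ hσ σ' hσ' p j j' h1 h2 h3
    obtain ⟨τ, hg, rfl, -⟩ := hR σ hσ
    obtain ⟨τ', hg', rfl, -⟩ := hR σ' hσ'
    exact npt_biex hN hb s p ⟨_, _, ((hg p).shift (j.val : ℤ)).ext h1,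
      ((hg' p).shift (j'.val : ℤ)).ext h2, h3⟩
  · intro p hp a hap
    obtain ⟨d, e, hd, he, hda, hea, hde, hdq, heq⟩ := h.two_contacts hmin hp hap
    refine ⟨d, e, hd, he, hda, hea, hde, fun σ hσ j => ?_⟩
    obtain ⟨τ, hg, rfl, -⟩ := hR σ hσ
    exact ⟨hdq _ (dist_pt _ _), heq _ (dist_pt _ _)⟩

end Vale.Agent.P032.H89
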