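import Vale.Agent.P032.H89.Dich
import Vale.Agent.P032.S5.H843.Hand5

/-!
# P032: the assembly with two blocks (wild frame)

`NoBiex` : no biexact point with a unit neighbour of at least four colours.
`NoAlt`  : in a world without such points there is no alternating point of five colours with a unit
neighbour of at least four colours.
`not_dense` : these two (and the landed theorems on clean points of five and six colours) imply that
six open sets without unit distances do not have a dense union.
-/

open Set Filter Topology Metric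

noncomputable section

namespace Vale.Agent.P032.H89

open Vale.Agent.P032.Six Vale.Agent.P032.S5.H767 Vale.Agent.P032.S5.H843
  Vale.Agent.P032.S5.H926

/-- **Block 1.** No biexact point with a unit neighbour of at least four colours. -/
def NoBiex : Prop :=
  ∀ (U : Fin 6 → Set ℂ) (T : ℂ → Set (Fin 6)), Irr U T → Mn U T →
    ∀ z v, dist z v = 1 → 4 ≤ (T v).ncard → Biex T z → False

/-- **Block 2.** No alternating point, in a world without biexact points with a unit neighbour of
at least four colours. -/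
def NoAlt : Prop :=
  ∀ (U : Fin 6 → Set ℂ) (T : ℂ → Set (Fin 6)), Irr U T → Mn U T →
    (∀ z v, dist z v = 1 → 4 ≤ (T v).ncard → Biex T z → False) →
    ∀ z m, T z = {m}ᶜ → Alt T z m → False

/-- a two-pair point is biexact -/
theorem biex_of_DPt {T : ℂ → Set (Fin 6)} {z : ℂ} {a b c d : Fin 6} (h : DPt T z a b c d) :
    Biex T z := by
  obtain ⟨p, hp1, hp2⟩ := h.arc1
  obtain ⟨q, hq1, hq2⟩ := h.arc2
  have hp3 : T p = {a, b} := hp2.self_of_nhdsWithin hp1
  have hq3 : T q = {c, d} := hq2.self_of_nhdsWithin hq1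
  refine ⟨p, q, ⟨hp1, hp2.mono fun y hy => by rw [hy, hp3], ?_⟩,
    ⟨hq1, hq2.mono fun y hy => by rw [hy, hq3], ?_⟩, ?_⟩
  · rw [hp3, h.pal]
    rintro i (rfl | rfl)
    · exact Or.inl rfl
    · exact Or.inr (Or.inl rfl)
  · rw [hq3, h.pal]
    rintro i (rfl | rfl)
    · exact Or.inr (Or.inr (Or.inl rfl))
    · exact Or.inr (Or.inr (Or.inr rfl))
  · rw [hp3, hq3, Set.disjoint_left]
    rintro i (rfl | rfl) (h1 | h1)
    exacts [h.ac h1, h.ad h1, h.bc h1, h.bd h1]

/-- the hypothesis of the core theorem -/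
theorem hU_of {U : Fin 6 → Set ℂ} {T : ℂ → Set (Fin 6)} (hB : NoBiex) (hA : NoAlt)
    (h : Irr U T) (hmin : Mn U T) (z v : ℂ) (hzv : dist z v = 1) (hv : 4 ≤ (T v).ncard)
    (hz : 5 ≤ (T z).ncard ∨ ∃ a b c d, DPt T z a b c d) : False := by
  have hb : ¬ Biex T z := hB U T h hmin z v hzv hv
  rcases hz with h5 | ⟨a, b, c, d, hD⟩
  · by_cases h6 : ∀ i, i ∈ T z
    · exact hb (biex_six h h6)
    · push Not at h6
      obtain ⟨m, hm⟩ := h6
      have h7 : T z = {m}ᶜ := by
        refine Set.eq_of_subset_of_ncard_le (fun i hi => ?_) ?_ (Set.toFinite _)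
        · rintro rfl; exact hm hi
        · have h8 : ({m}ᶜ : Set (Fin 6)).ncard = 5 := by
            rw [Set.ncard_compl, Set.ncard_singleton, Nat.card_eq_fintype_card, Fintype.card_fin]
          omega
      exact hA U T h hmin (hB U T h hmin) z m h7 ((biex_or_alt h h7).resolve_left hb)
  · exact hb (biex_of_DPt hD)

/-- **The assembly.** -/
theorem not_dense (H5 : NoFive) (H6 : NoSix) (hB : NoBiex) (hA : NoAlt)
    (V : Fin 6 → Set ℂ) (hV : ∀ i, IsOpen (V i)) (hf : ∀ i, ∀ x ∈ V i, ∀ y ∈ V i, dist x y ≠ 1) :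
    ¬ Dense (⋃ i, V i) := by
  intro hd
  choose U hVU hU using fun i => exists_maximal_ge (hV i) (hf i)
  have hdU : Dense (⋃ i, U i) := hd.mono (iUnion_mono hVU)
  have hMx := Mx_of_maximal hU hdU
  obtain ⟨T, hT, hmin, -⟩ := exists_frameN hMx
    (fun i x hx => (mem_iff_of_maximal (hU i) x).2 hx) (N := fun _ => 6)
    (fun x => Eventually.of_forall fun w => le_rfl) (fun x => by norm_num) (fun z _ => by
      refine ⟨univ, by rw [Set.ncard_univ, Nat.card_eq_fintype_card, Fintype.card_fin],
        Eventually.of_forall fun w => ?_⟩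
      by_cases hw : w ∈ XX U
      · obtain ⟨i, hi⟩ := cover_of_dense hdU w
        exact ⟨i, mem_univ i, Or.inr ⟨hw, hi⟩⟩
      · have hw' : ∃ i, w ∈ U i := by
          by_contra hcon
          push Not at hcon
          exact hw hcon
        obtain ⟨i, hi⟩ := hw'
        exact ⟨i, mem_univ i, Or.inl hi⟩)
  exact core6 H5 H6 hT hmin (hU_of hB hA hT hmin)

end Vale.Agent.P032.H89
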