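import Vale.Agent.P032.H89.Rules

/-!
# P032, alternating points: palettes and exact letters are constant on a portion

* `Up T x` : the sets which contain an exact palette of `S(x)`,
* `exists_const` : on a portion of any set of directions the palettes of the six neighbours and
  their `Up` are constant,
* `sys_of_const` : the finite system, with all directions of such a portion as bases.
-/

open Set Filter Topology Metric

noncomputable section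

namespace Vale.Agent.P032.H89

open Vale.Agent.P032.Six Vale.Agent.P032.S5.H767 Vale.Agent.P032.S5.H843

variable {U : Fin 6 → Set ℂ} {T : ℂ → Set (Fin 6)} {z : ℂ}

/-- the sets which contain an exact palette of `S(x)` -/
def Up (T : ℂ → Set (Fin 6)) (x : ℂ) : Set (Set (Fin 6)) := {l | ∃ q, Ext T x q ∧ T q ⊆ l}

/-- `Up` is lower semicontinuous where the palette is constant -/
theorem ev_Up (h : Irr U T) (x : ℂ) : ∀ᶠ y in 𝓝 x, T y = T x → Up T x ⊆ Up T y := by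
  have key : ∀ l : Set (Fin 6), l ∈ Up T x → ∀ᶠ y in 𝓝 x, T y = T x → l ∈ Up T y := by
    rintro l ⟨q, hq, hql⟩
    obtain ⟨hqx, -, hqs⟩ := hq
    have h1 : Tendsto (fun y => q + (y - x)) (𝓝 x) (𝓝 q) := by
      have h2 : Continuous fun y : ℂ => q + (y - x) := by fun_prop
      have h3 := h2.tendsto x
      simpa using h3
    filter_upwards [h1.eventually (eventually_eventually_nhds.2 (h.nhd q))] with y hy hyx
    have h4 : dist (q + (y - x)) y = 1 := by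
      rw [dist_eq_norm] at hqx ⊢
      rw [← hqx]; congr 1; ring
    obtain ⟨r, ⟨hrV, hrS⟩, hr⟩ := h.const (S := sphere y 1) (y := q + (y - x)) h4 hy
    have hrV : T r ⊆ T q := hrV
    exact ⟨r, ⟨hrS, hr, by rw [hyx]; exact hrV.trans hqs⟩, hrV.trans hql⟩
  have h2 : ∀ᶠ y in 𝓝 x, ∀ l : Set (Fin 6), l ∈ Up T x → T y = T x → l ∈ Up T y := by
    rw [eventually_all]
    intro l
    by_cases hl : l ∈ Up T x
    · exact (key l hl).mono fun y hy _ => hy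
    · exact Eventually.of_forall fun y hl' => absurd hl' hl
  exact h2.mono fun y hy hyx l hl => hy l hl hyx

theorem continuous_npt (z : ℂ) (p : Option (Fin 6)) : Continuous fun s => npt z s p := by
  rcases p with _ | k
  · exact continuous_const
  · exact (continuous_pt z).comp (by fun_prop)

/-- **Constant palettes and exact letters on a portion.** -/
theorem exists_const (h : Irr U T) (z : ℂ) {S : Set ℝ} (hS : S.Nonempty) :
    ∃ s₀ ∈ S, ∀ᶠ s in 𝓝[S] s₀, nd T z s = nd T z s₀ ∧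
      ∀ p, Up T (npt z s p) = Up T (npt z s₀ p) := by
  -- minimal palettes
  let f : ℝ → ℕ := fun s => ∑ p : Option (Fin 6), (nd T z s p).ncard
  obtain ⟨_, ⟨s₁, hs₁, rfl⟩, hmin⟩ :=
    WellFounded.has_min (r := ((· < ·) : ℕ → ℕ → Prop)) wellFounded_lt _ (hS.image f)
  have h1 : ∀ᶠ s in 𝓝 s₁, ∀ p, nd T z s p ⊆ nd T z s₁ p :=
    eventually_all.2 fun p => ((continuous_npt z p).tendsto s₁).eventually (h.nhd _)
  have h2 : ∀ᶠ s in 𝓝 s₁, s ∈ S → nd T z s = nd T z s₁ := by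
    filter_upwards [h1] with s hs hsS
    have h3 : f s₁ ≤ f s := not_lt.1 (hmin _ ⟨s, hsS, rfl⟩)
    have h4 : ∀ p ∈ (Finset.univ : Finset (Option (Fin 6))),
        (nd T z s p).ncard ≤ (nd T z s₁ p).ncard :=
      fun p _ => Set.ncard_le_ncard (hs p) (Set.toFinite _)
    have h5 : f s = f s₁ := le_antisymm (Finset.sum_le_sum h4) h3
    funext p
    exact Set.eq_of_subset_of_ncard_le (hs p)
      ((Finset.sum_eq_sum_iff_of_le h4).1 h5 p (Finset.mem_univ p)).ge (Set.toFinite _)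
  obtain ⟨O, hO, hOo, hs₁O⟩ := _root_.mem_nhds_iff.1 h2
  -- maximal families
  let g : ℝ → ℕ := fun s => ∑ p : Option (Fin 6), (Up T (npt z s p))ᶜ.ncard
  have hne : (S ∩ O).Nonempty := ⟨s₁, hs₁, hs₁O⟩
  obtain ⟨_, ⟨s₀, ⟨hs₀, hs₀O⟩, rfl⟩, hmax⟩ :=
    WellFounded.has_min (r := ((· < ·) : ℕ → ℕ → Prop)) wellFounded_lt _ (hne.image g)
  refine ⟨s₀, hs₀, ?_⟩
  have hnd : ∀ s ∈ S ∩ O, nd T z s = nd T z s₁ := fun s hs => hO hs.2 hs.1
  have h6 : ∀ᶠ s in 𝓝 s₀, ∀ p, T (npt z s p) = T (npt z s₀ p) →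
      Up T (npt z s₀ p) ⊆ Up T (npt z s p) :=
    eventually_all.2 fun p => ((continuous_npt z p).tendsto s₀).eventually (ev_Up h _)
  filter_upwards [mem_nhdsWithin_of_mem_nhds (hOo.mem_nhds hs₀O),
    mem_nhdsWithin_of_mem_nhds h6, self_mem_nhdsWithin] with s hsO hs hsS
  have e0 : nd T z s = nd T z s₀ := (hnd s ⟨hsS, hsO⟩).trans (hnd s₀ ⟨hs₀, hs₀O⟩).symm
  refine ⟨e0, ?_⟩
  have hs' : ∀ p, Up T (npt z s₀ p) ⊆ Up T (npt z s p) := fun p => hs p (congrFun e0 p)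
  have h7 : g s₀ ≤ g s := not_lt.1 (hmax _ ⟨s, ⟨hsS, hsO⟩, rfl⟩)
  have h8 : ∀ p ∈ (Finset.univ : Finset (Option (Fin 6))),
      (Up T (npt z s p))ᶜ.ncard ≤ (Up T (npt z s₀ p))ᶜ.ncard :=
    fun p _ => Set.ncard_le_ncard (compl_subset_compl.2 (hs' p)) (Set.toFinite _)
  have h9 : g s = g s₀ := le_antisymm (Finset.sum_le_sum h8) h7
  intro p
  have h10 := (Finset.sum_eq_sum_iff_of_le h8).1 h9 p (Finset.mem_univ p)
  exact compl_injective (Set.eq_of_subset_of_ncard_le (compl_subset_compl.2 (hs' p)) h10.ge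
    (Set.toFinite _))

/-- an exact letter at a generic time -/
theorem mem_Up {s τ : ℝ} (hg : JGen T z s τ) {p : Option (Fin 6)} {j : Fin 6}
    (hsub : st T z s τ p j ⊆ nd T z s p) : st T z s τ p j ∈ Up T (npt z s p) :=
  ⟨_, ((hg p).shift (j.val : ℤ)).ext hsub, Subset.rfl⟩

/-- **The system from states at several bases** with the same node palettes and exact letters. -/
theorem sys_core (h : Irr U T) (hmin : Mn U T) (hN : ∀ q, dist q z = 1 → ¬ Biex T q)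
    (hb : ¬ Biex T z) {m : Fin 6} (hz : T z = {m}ᶜ) {s₀ : ℝ} (hs₀ : s₀ ∈ Sg T z m)
    {Q : Set State} (hQ : ∀ σ ∈ Q, ∃ s τ, nd T z s = nd T z s₀ ∧
      (∀ p, Up T (npt z s p) = Up T (npt z s₀ p)) ∧ JGen T z s τ ∧ st T z s τ = σ ∧
      R1 m (nd T z s₀) σ)
    (m3r : ∀ a, a ≠ m → ∀ k (t : Prop), ∃ σ ∈ Q, (m ∈ σ none 0 ↔ t) ∧ a ∉ σ (some k) (k + 2))
    (m3l : ∀ a, a ≠ m → ∀ k (t : Prop), ∃ σ ∈ Q, (m ∈ σ none 0 ↔ t) ∧ a ∉ σ (some k) (k - 2)) :
    Sys m (nd T z s₀) Q := by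
  have ha : Alt T z m := (biex_or_alt h hz).resolve_left hb
  have hR : ∀ σ ∈ Q, R1 m (nd T z s₀) σ := by
    intro σ hσ
    obtain ⟨-, -, -, -, -, -, hr⟩ := hQ σ hσ
    exact hr
  have hup : ∀ σ ∈ Q, ∀ p j, σ p j ⊆ nd T z s₀ p → σ p j ∈ Up T (npt z s₀ p) := by
    intro σ hσ p j hsub
    obtain ⟨s, τ, h2, h3, hg, rfl, -⟩ := hQ σ hσ
    rw [← h3 p]
    exact mem_Up hg (by rw [h2]; exact hsub)
  refine ⟨hz, fun k => mem_nb h ha hs₀ _, fun k => ?_, fun σ hσ => (hR σ hσ).ne,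
    fun σ hσ => (hR σ hσ).hex, fun σ hσ => (hR σ hσ).inz, fun σ hσ => (hR σ hσ).inv,
    fun σ hσ => (hR σ hσ).inr, fun σ hσ => (hR σ hσ).inl, fun σ hσ => (hR σ hσ).two,
    fun σ hσ => (hR σ hσ).gap, fun σ hσ => (hR σ hσ).rz, fun σ hσ => (hR σ hσ).rv,
    fun σ hσ => (hR σ hσ).alt, ?_, ?_, m3r, m3l⟩
  · by_contra hcon
    push Not at hcon
    exact hN _ (dist_pt z _) (biex_six h hcon)
  · intro σ hσ σ' hσ' p j j' h1 h2 h3
    obtain ⟨q, hq, hq'⟩ := hup σ hσ p j h1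
    obtain ⟨r, hr, hr'⟩ := hup σ' hσ' p j' h2
    exact npt_biex hN hb s₀ p ⟨q, r, hq, hr, h3.mono hq' hr'⟩
  · intro p hp a hap
    obtain ⟨d, e, hd, he, hda, hea, hde, hdq, heq⟩ := h.two_contacts hmin hp hap
    have key : ∀ σ ∈ Q, ∀ j, ∀ d ∈ nd T z s₀ p, (∀ q, dist q (npt z s₀ p) = 1 → T q ≠ {a, d}) →
        σ p j ≠ {a, d} := by
      intro σ hσ j d hd hdq hcon
      obtain ⟨q, hq, hq'⟩ := hup σ hσ p j (by
        rw [hcon]; rintro i (rfl | rfl) <;> assumption)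
      rw [hcon] at hq'
      have h5 := (hq.two h).1
      have h6 : ({a, d} : Set (Fin 6)).ncard ≤ 2 := by
        refine (Set.ncard_insert_le _ _).trans ?_
        rw [Set.ncard_singleton]
      exact hdq q hq.1 (Set.eq_of_subset_of_ncard_le hq' (h6.trans h5) (Set.toFinite _))
    exact ⟨d, e, hd, he, hda, hea, hde, fun σ hσ j => ⟨key σ hσ j d hd hdq, key σ hσ j e he heq⟩⟩

/-- the system from several bases, at each of which some times are used frequently -/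
theorem sys_of_const (h : Irr U T) (hmin : Mn U T) (hN : ∀ q, dist q z = 1 → ¬ Biex T q)
    {m : Fin 6} (hz : T z = {m}ᶜ) (hb : ¬ Biex T z) {s₀ : ℝ} (hs₀ : s₀ ∈ Sg T z m) {W : Set ℝ}
    (hW : ∀ s ∈ W, s ∈ Sg T z m ∧ nd T z s = nd T z s₀ ∧
      ∀ p, Up T (npt z s p) = Up T (npt z s₀ p))
    (m3r : ∀ a, a ≠ m → ∀ (k : Fin 6) (t : Prop), ∃ s ∈ W, ∃ᶠ τ in 𝓝 s, JGen T z s τ ∧
      (m ∈ T (pt z τ) ↔ t) ∧ a ∉ st T z s τ (some k) (k + 2))
    (m3l : ∀ a, a ≠ m → ∀ (k : Fin 6) (t : Prop), ∃ s ∈ W, ∃ᶠ τ in 𝓝 s, JGen T z s τ ∧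
      (m ∈ T (pt z τ) ↔ t) ∧ a ∉ st T z s τ (some k) (k - 2)) :
    ∃ Q, Sys m (nd T z s₀) Q := by
  have ha : Alt T z m := (biex_or_alt h hz).resolve_left hb
  refine ⟨{σ | ∃ s τ, nd T z s = nd T z s₀ ∧ (∀ p, Up T (npt z s p) = Up T (npt z s₀ p)) ∧
    JGen T z s τ ∧ st T z s τ = σ ∧ R1 m (nd T z s₀) σ}, ?_⟩
  have hm3 : ∀ (a : Fin 6) (k j : Fin 6) (t : Prop), (∃ s ∈ W, ∃ᶠ τ in 𝓝 s, JGen T z s τ ∧
      (m ∈ T (pt z τ) ↔ t) ∧ a ∉ st T z s τ (some k) j) →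
      ∃ σ ∈ {σ | ∃ s τ, nd T z s = nd T z s₀ ∧ (∀ p, Up T (npt z s p) = Up T (npt z s₀ p)) ∧
        JGen T z s τ ∧ st T z s τ = σ ∧ R1 m (nd T z s₀) σ},
        (m ∈ σ none 0 ↔ t) ∧ a ∉ σ (some k) j := by
    rintro a k j t ⟨s, hs, hf⟩
    obtain ⟨h1, h2, h3⟩ := hW s hs
    obtain ⟨τ, ⟨hg, ht, hak⟩, hr⟩ := (hf.and_eventually (ev_R1 h hz ha h1)).exists
    refine ⟨st T z s τ, ⟨s, τ, h2, h3, hg, rfl, h2 ▸ hr hg⟩, ?_, hak⟩
    have e : st T z s τ none 0 = T (pt z τ) := by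
      have e1 : τ + (((0 : Fin 6).val : ℤ) : ℝ) = τ := by simp
      show T (pt z (τ + (((0 : Fin 6).val : ℤ) : ℝ))) = T (pt z τ)
      rw [e1]
    rw [e]; exact ht
  exact sys_core h hmin hN hb hz hs₀ (fun σ hσ => hσ) (fun a ha k t => hm3 a k _ t (m3r a ha k t))
    fun a ha k t => hm3 a k _ t (m3l a ha k t)

end Vale.Agent.P032.H89
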