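import Vale.Agent.P032.H89.NonIso
import Vale.Agent.P032.H89.SysI

/-!
# P032, alternating points: the states on the two sides of an isolated switching direction
-/

open Set Filter Topology Metric

noncomputable section

namespace Vale.Agent.P032.H89

open Vale.Agent.P032.Six Vale.Agent.P032.S5.H767 Vale.Agent.P032.S5.H843

variable {U : Fin 6 → Set ℂ} {T : ℂ → Set (Fin 6)} {z : ℂ} {m : Fin 6}

/-- the right (`true`) or left side of `s` -/
def sf (t : Bool) (s : ℝ) : Filter ℝ := if t = true then 𝓝[>] s else 𝓝[<] s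

theorem sf_le (t : Bool) (s : ℝ) : sf t s ≤ 𝓝 s := by
  unfold sf
  split
  · exact nhdsWithin_le_nhds
  · exact nhdsWithin_le_nhds

/-- the states which occur on the side `t`, at times arbitrarily near `s` -/
def Qs (T : ℂ → Set (Fin 6)) (z : ℂ) (s : ℝ) (t : Bool) : Set State :=
  {σ | ∃ᶠ τ in sf t s, JGen T z s τ ∧ st T z s τ = σ}

/-- **Pigeonhole.** -/
theorem freq_Q {s : ℝ} {t : Bool} {P : State → Prop}
    (h : ∃ᶠ τ in sf t s, JGen T z s τ ∧ P (st T z s τ)) : ∃ σ ∈ Qs T z s t, P σ := by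
  by_contra hcon
  push Not at hcon
  have h1 : ∀ᶠ τ in sf t s, ∀ σ : State, P σ → ¬ (JGen T z s τ ∧ st T z s τ = σ) := by
    refine eventually_all.2 fun σ => ?_
    by_cases hσ : P σ
    · have h2 : ¬ ∃ᶠ τ in sf t s, JGen T z s τ ∧ st T z s τ = σ := fun h3 => hcon σ h3 hσ
      rw [not_frequently] at h2
      exact h2.mono fun τ hτ _ => hτ
    · exact Eventually.of_forall fun τ h3 => absurd h3 hσ
  obtain ⟨τ, ⟨hg, hP⟩, h2⟩ := (h.and_eventually h1).exists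
  exact h2 _ hP ⟨hg, rfl⟩

/-- an open set which meets a side of `s` arbitrarily near `s` contains jointly generic times -/
theorem freq_sf {s : ℝ} {t : Bool} {P : ℝ → Prop}
    (h : ∀ ε > 0, ∃ τ ∈ (if t = true then Ioo s (s + ε) else Ioo (s - ε) s), P τ) :
    ∃ᶠ τ in sf t s, P τ := by
  unfold sf
  by_cases ht : t = true
  · simp only [ht, if_true] at h ⊢
    rw [frequently_iff]
    intro N hN
    obtain ⟨u, hu, hsub⟩ := (mem_nhdsGT_iff_exists_Ioo_subset (a := s)).1 hN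
    obtain ⟨τ, hτ, hP⟩ := h (u - s) (by have : s < u := hu; linarith)
    refine ⟨τ, hsub ⟨hτ.1, ?_⟩, hP⟩
    have := hτ.2
    linarith
  · simp only [ht, if_false] at h ⊢
    rw [frequently_iff]
    intro N hN
    obtain ⟨u, hu, hsub⟩ := (mem_nhdsLT_iff_exists_Ioo_subset (a := s)).1 hN
    obtain ⟨τ, hτ, hP⟩ := h (s - u) (by have : u < s := hu; linarith)
    refine ⟨τ, hsub ⟨?_, hτ.2⟩, hP⟩
    have := hτ.1
    linarith

theorem freq_jgen (h : Irr U T) (z : ℂ) (s : ℝ) (t : Bool) :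
    ∃ᶠ τ in sf t s, JGen T z s τ := by
  refine freq_sf fun ε hε => ?_
  by_cases ht : t = true
  · simp only [ht, if_true]
    exact jgen_exists h z s isOpen_Ioo (nonempty_Ioo.2 (by linarith))
  · simp only [ht, if_false]
    exact jgen_exists h z s isOpen_Ioo (nonempty_Ioo.2 (by linarith))

theorem Sg_add_one (ha : Alt T z m) {s : ℝ} (hs : s ∈ Sg T z m) : s + 1 ∈ Sg T z m := by
  have ht : Tendsto (fun t : ℝ => t + 1) (𝓝 s) (𝓝 (s + 1)) := by
    have h2 : Continuous fun t : ℝ => t + 1 := by fun_prop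
    exact h2.tendsto s
  constructor
  · rw [mem_closure_iff_frequently]
    have h1 : ∃ᶠ t in 𝓝 s, Gen T z (t + 1) ∧ m ∈ T (pt z (t + 1)) :=
      (freq_in ha hs 1).mono fun t ht => by
        have e : t + ((1 : ℤ) : ℝ) = t + 1 := by push_cast; ring
        have h3 := ht.1.shift 1
        rw [e] at h3
        exact ⟨h3, by rw [← e]; exact ht.2⟩
    exact ht.frequently h1
  · rw [mem_closure_iff_frequently]
    have h1 : ∃ᶠ t in 𝓝 s, Gen T z (t + 1) ∧ m ∉ T (pt z (t + 1)) :=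
      (freq_out ha hs 1).mono fun t ht => by
        have e : t + ((1 : ℤ) : ℝ) = t + 1 := by push_cast; ring
        have h3 := ht.1.shift 1
        rw [e] at h3
        exact ⟨h3, by rw [← e]; exact ht.2⟩
    exact ht.frequently h1

/-- **Orientation.** After a rotation by 60 degrees the colour `m` is in the slot `0` on the right
side, and not on the left side. -/
theorem exists_orient (h : Irr U T) (ha : Alt T z m) {s : ℝ} (hs : s ∈ Sg T z m)
    (hiso : ∃ ε > 0, ∀ s' ∈ Sg T z m, |s' - s| < ε → s' = s) :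
    ∃ s ∈ Sg T z m, ∃ ε > 0, (∀ τ ∈ Ioo s (s + ε), Gen T z τ → m ∈ T (pt z τ)) ∧
      ∀ τ ∈ Ioo (s - ε) s, Gen T z τ → m ∉ T (pt z τ) := by
  obtain ⟨ε, hε, hiso⟩ := hiso
  have noR : ∀ x ∈ Ioo s (s + ε), x ∉ Sg T z m := fun x hx hxS => by
    have := hiso x hxS (by rw [abs_lt]; constructor <;> linarith [hx.1, hx.2])
    linarith [hx.1]
  have noL : ∀ x ∈ Ioo (s - ε) s, x ∉ Sg T z m := fun x hx hxS => by
    have := hiso x hxS (by rw [abs_lt]; constructor <;> linarith [hx.1, hx.2])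
    linarith [hx.2]
  obtain ⟨u, hu, hug⟩ := gen_exists h z isOpen_Ioo (nonempty_Ioo.2 (show s < s + ε by linarith))
  obtain ⟨v, hv, hvg⟩ := gen_exists h z isOpen_Ioo (nonempty_Ioo.2 (show s - ε < s by linarith))
  have hR : ∀ τ ∈ Ioo s (s + ε), Gen T z τ → (m ∈ T (pt z τ) ↔ m ∈ T (pt z u)) :=
    fun τ hτ hg => ty_const h noR hτ hu hg hug
  have hL : ∀ τ ∈ Ioo (s - ε) s, Gen T z τ → (m ∈ T (pt z τ) ↔ m ∈ T (pt z v)) :=
    fun τ hτ hg => ty_const h noL hτ hv hg hvg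
  have hne : ¬ (m ∈ T (pt z u) ↔ m ∈ T (pt z v)) := by
    intro heq
    have hnear : ∀ᶠ t in 𝓝 s, t ∈ Ioo (s - ε) (s + ε) := Ioo_mem_nhds (by linarith) (by linarith)
    have key : ∀ t ∈ Ioo (s - ε) (s + ε), Gen T z t → (m ∈ T (pt z t) ↔ m ∈ T (pt z u)) := by
      intro t ht hg
      have hts : t ≠ s := by
        rintro rfl
        exact hg.lc0.notMem_Sg hs
      rcases lt_or_gt_of_ne hts with h1 | h1
      · exact (hL t ⟨ht.1, h1⟩ hg).trans heq.symm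
      · exact hR t ⟨h1, ht.2⟩ hg
    obtain ⟨a, ⟨ha1, ha2⟩, ha3⟩ := ((freq_in ha hs 0).and_eventually hnear).exists
    obtain ⟨b, ⟨hb1, hb2⟩, hb3⟩ := ((freq_out ha hs 0).and_eventually hnear).exists
    rw [Int.cast_zero, add_zero] at ha2 hb2
    exact hb2 ((key b hb3 hb1).2 ((key a ha3 ha1).1 ha2))
  by_cases hmu : m ∈ T (pt z u)
  · have hmv : m ∉ T (pt z v) := fun hmv => hne (iff_of_true hmu hmv)
    exact ⟨s, hs, ε, hε, fun τ hτ hg => (hR τ hτ hg).2 hmu,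
      fun τ hτ hg hm => hmv ((hL τ hτ hg).1 hm)⟩
  · have hmv : m ∈ T (pt z v) := by tauto
    refine ⟨s + 1, Sg_add_one ha hs, ε, hε, fun τ hτ hg => ?_, fun τ hτ hg hm => ?_⟩
    · have hg' : Gen T z (τ - 1) := by
        have := hg.shift (-1)
        have e : τ + ((-1 : ℤ) : ℝ) = τ - 1 := by push_cast; ring
        rwa [e] at this
      have h1 := ha _ hg'
      rw [sub_add_cancel] at h1
      by_contra hcon
      have h2 := h1.2 hcon
      exact hmu ((hR (τ - 1) ⟨by linarith [hτ.1], by linarith [hτ.2]⟩ hg').1 h2)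
    · have hg' : Gen T z (τ - 1) := by
        have := hg.shift (-1)
        have e : τ + ((-1 : ℤ) : ℝ) = τ - 1 := by push_cast; ring
        rwa [e] at this
      have h1 := ha _ hg'
      rw [sub_add_cancel] at h1
      exact h1.1 ((hL (τ - 1) ⟨by linarith [hτ.1], by linarith [hτ.2]⟩ hg').2 hmv) hm

/-- all fields of `SysI` which concern one state or the exact letters -/
theorem sysI_of (h : Irr U T) (hmin : Mn U T) (hz : T z = {m}ᶜ) (hb : ¬ Biex T z)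
    (hN : ∀ q, dist q z = 1 → ¬ Biex T q) {s : ℝ} (hs : s ∈ Sg T z m) {ε : ℝ} (hε : 0 < ε)
    (hR : ∀ τ ∈ Ioo s (s + ε), Gen T z τ → m ∈ T (pt z τ))
    (hL : ∀ τ ∈ Ioo (s - ε) s, Gen T z τ → m ∉ T (pt z τ))
    (r7z : ∀ t, ∀ σ ∈ Qs T z s t, ∀ t', ∀ σ' ∈ Qs T z s t', ∀ k j, ¬ σ' (some k) j ⊆ σ none k)
    (r7v : ∀ t, ∀ σ ∈ Qs T z s t, ∀ t', ∀ σ' ∈ Qs T z s t', ∀ k j,
      ¬ σ' none j ⊆ σ (some k) (k + 3))
    (r7r : ∀ t, ∀ σ ∈ Qs T z s t, ∀ t', ∀ σ' ∈ Qs T z s t', ∀ k j,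
      ¬ σ' (some (k + 1)) j ⊆ σ (some k) (k + 2))
    (r7l : ∀ t, ∀ σ ∈ Qs T z s t, ∀ t', ∀ σ' ∈ Qs T z s t', ∀ k j,
      ¬ σ' (some (k - 1)) j ⊆ σ (some k) (k - 2))
    (s3 : ∀ a, a ≠ m → ∃ I : Fin 6 → Prop, (∀ K, Cr (Qs T z s) K (I K) {a}) ∧
      ((∃ w, ∀ K, I K ↔ (K = w ∨ K = w + 1 ∨ K = w + 2)) ∨
      (∃ w, (∀ K, I K ↔ (K = w + 1 ∨ K = w + 2)) ∧ Nn (Qs T z s) none w true {a} ∧
        Nn (Qs T z s) none (w + 3) false {a})))
    (s1 : ∀ t, ∀ σ ∈ Qs T z s t, ∀ k K, K ≠ k →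
      Cr (Qs T z s) K (if t = true then K = k + 4 ∨ K = k + 5 else K = k + 1 ∨ K = k + 2)
        (σ (some k) (k + 3)))
    (s2r : ∀ t, ∀ σ ∈ Qs T z s t, ∀ k,
      Nn (Qs T z s) (some k) (k + 3) t (σ (some k) (k + 2)) ∧
      Nn (Qs T z s) (some (k - 1)) (k + 2) t (σ (some k) (k + 2)) ∧
      Nn (Qs T z s) (some (k + 2)) (k + 5) (!t) (σ (some k) (k + 2)) ∧
      Nn (Qs T z s) (some (k + 3)) (k + 6) (!t) (σ (some k) (k + 2)) ∧
      Nn (Qs T z s) (some (k + 3)) (k + 1) t (σ (some k) (k + 2)))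
    (s2l : ∀ t, ∀ σ ∈ Qs T z s t, ∀ k,
      Nn (Qs T z s) (some k) (k + 3) t (σ (some k) (k - 2)) ∧
      Nn (Qs T z s) (some (k + 1)) (k + 4) t (σ (some k) (k - 2)) ∧
      Nn (Qs T z s) (some (k - 2)) (k + 1) (!t) (σ (some k) (k - 2)) ∧
      Nn (Qs T z s) (some (k - 3)) k (!t) (σ (some k) (k - 2)) ∧
      Nn (Qs T z s) (some (k - 3)) (k - 1) t (σ (some k) (k - 2))) :
    SysI m (nd T z s) (Qs T z s) := by
  have ha : Alt T z m := (biex_or_alt h hz).resolve_left hb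
  have hQ : ∀ t, ∀ σ ∈ Qs T z s t, R1 m (nd T z s) σ := by
    intro t σ hσ
    obtain ⟨τ, ⟨hg, rfl⟩, hr⟩ := (Frequently.and_eventually hσ
      ((sf_le t s) (ev_R1 h hz ha hs))).exists
    exact hr hg
  have hJ : ∀ t, ∀ σ ∈ Qs T z s t, ∃ τ, JGen T z s τ ∧ st T z s τ = σ := by
    intro t σ hσ
    exact Frequently.exists hσ
  refine ⟨hz, fun k => mem_nb h ha hs _, fun k => ?_, fun t σ hσ => (hQ t σ hσ).ne,
    fun t σ hσ => (hQ t σ hσ).hex, fun t σ hσ => (hQ t σ hσ).inz, fun t σ hσ => (hQ t σ hσ).inv,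
    fun t σ hσ => (hQ t σ hσ).inr, fun t σ hσ => (hQ t σ hσ).inl, fun t σ hσ => (hQ t σ hσ).two,
    fun t σ hσ => (hQ t σ hσ).gap, fun t σ hσ => (hQ t σ hσ).rz, fun t σ hσ => (hQ t σ hσ).rv,
    ?_, ?_, ?_, ?_, r7z, r7v, r7r, r7l, s3, s1, s2r, s2l⟩
  · by_contra hcon
    push Not at hcon
    exact hN _ (dist_pt z _) (biex_six h hcon)
  · intro t σ hσ j
    by_cases ht : t = true
    · have h1 : ∀ᶠ τ in sf t s, τ ∈ Ioo s (s + ε) := by
        unfold sf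
        rw [if_pos ht]
        exact Ioo_mem_nhdsGT (by linarith)
      obtain ⟨τ, ⟨hg, rfl⟩, hτ⟩ := (Frequently.and_eventually hσ h1).exists
      have h2 := hR τ hτ (hg none)
      have h3 := ha.int (hg none) (j.val : ℤ)
      show m ∈ T (pt z (τ + ((j.val : ℤ) : ℝ))) ↔ (Even j.val ↔ t = true)
      rw [show Even (j.val : ℤ) ↔ Even j.val from Int.even_coe_nat _] at h3
      have h3' : m ∈ T (pt z (τ + ((j.val : ℤ) : ℝ))) ↔ (m ∈ T (pt z τ) ↔ Even j.val) := h3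
      tauto
    · have h1 : ∀ᶠ τ in sf t s, τ ∈ Ioo (s - ε) s := by
        unfold sf
        rw [if_neg ht]
        exact Ioo_mem_nhdsLT (by linarith)
      obtain ⟨τ, ⟨hg, rfl⟩, hτ⟩ := (Frequently.and_eventually hσ h1).exists
      have h2 := hL τ hτ (hg none)
      have h3 := ha.int (hg none) (j.val : ℤ)
      show m ∈ T (pt z (τ + ((j.val : ℤ) : ℝ))) ↔ (Even j.val ↔ t = true)
      rw [show Even (j.val : ℤ) ↔ Even j.val from Int.even_coe_nat _] at h3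
      have h3' : m ∈ T (pt z (τ + ((j.val : ℤ) : ℝ))) ↔ (m ∈ T (pt z τ) ↔ Even j.val) := h3
      tauto
  · intro t
    obtain ⟨σ, hσ, -⟩ := freq_Q (T := T) (z := z) (s := s) (t := t) (P := fun _ => True)
      ((freq_jgen h z s t).mono fun τ hτ => ⟨hτ, trivial⟩)
    exact ⟨σ, hσ⟩
  · intro t σ hσ t' σ' hσ' p j j' h1 h2 h3
    obtain ⟨τ, hg, rfl⟩ := hJ t σ hσ
    obtain ⟨τ', hg', rfl⟩ := hJ t' σ' hσ'
    exact npt_biex hN hb s p ⟨_, _, ((hg p).shift (j.val : ℤ)).ext h1,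
      ((hg' p).shift (j'.val : ℤ)).ext h2, h3⟩
  · intro p hp a hap
    obtain ⟨d, e, hd, he, hda, hea, hde, hdq, heq⟩ := h.two_contacts hmin hp hap
    refine ⟨d, e, hd, he, hda, hea, hde, fun t σ hσ j => ?_⟩
    obtain ⟨τ, hg, rfl⟩ := hJ t σ hσ
    exact ⟨hdq _ (dist_pt _ _), heq _ (dist_pt _ _)⟩

end Vale.Agent.P032.H89
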