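import Vale.Agent.P032.H89.Perf
import Vale.Agent.P032.H89.SysR

/-!
# P032, alternating points which are not isolated among the alternating points (helper283)

`exists_sysR` : a nonempty set of alternating points (same colour `m`) without isolated points gives
a `SysR`.
-/

open Set Filter Topology Metric

noncomputable section

namespace Vale.Agent.P032.H89

open Vale.Agent.P032.Six Vale.Agent.P032.S5.H767 Vale.Agent.P032.S5.H843

variable {U : Fin 6 → Set ℂ} {T : ℂ → Set (Fin 6)} {z : ℂ} {m : Fin 6}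

/-! ### Switches and types -/

/-- a switching direction between two generic times of different types -/
theorem exists_sw (h : Irr U T) {t1 t2 : ℝ} (ht : t1 ≤ t2) (g1 : Gen T z t1) (g2 : Gen T z t2)
    (hne : ¬ (m ∈ T (pt z t1) ↔ m ∈ T (pt z t2))) : (Sg T z m ∩ Icc t1 t2).Nonempty := by
  set A : Set ℝ := closure {t | Gen T z t ∧ m ∈ T (pt z t)} with hA
  set B : Set ℝ := closure {t | Gen T z t ∧ m ∉ T (pt z t)} with hB
  have hcov : ∀ t : ℝ, t ∈ A ∪ B := by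
    intro t
    rw [hA, hB, ← closure_union]
    rw [_root_.mem_closure_iff]
    intro O hO htO
    obtain ⟨t', ht', hg⟩ := gen_exists h z hO ⟨t, htO⟩
    refine ⟨t', ht', ?_⟩
    by_cases hm : m ∈ T (pt z t')
    · exact Or.inl ⟨hg, hm⟩
    · exact Or.inr ⟨hg, hm⟩
  have hpre := isPreconnected_closed_iff.1 (isPreconnected_Icc (a := t1) (b := t2)) A B
    isClosed_closure isClosed_closure (fun t _ => hcov t)
  have hAne : (Icc t1 t2 ∩ A).Nonempty := by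
    by_cases hm : m ∈ T (pt z t1)
    · exact ⟨t1, left_mem_Icc.2 ht, subset_closure ⟨g1, hm⟩⟩
    · exact ⟨t2, right_mem_Icc.2 ht, subset_closure ⟨g2, by tauto⟩⟩
  have hBne : (Icc t1 t2 ∩ B).Nonempty := by
    by_cases hm : m ∈ T (pt z t1)
    · exact ⟨t2, right_mem_Icc.2 ht, subset_closure ⟨g2, by tauto⟩⟩
    · exact ⟨t1, left_mem_Icc.2 ht, subset_closure ⟨g1, hm⟩⟩
  obtain ⟨t, ht', h2⟩ := hpre hAne hBne
  exact ⟨t, h2, ht'⟩

/-- the type is constant where there is no switching direction -/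
theorem ty_const (h : Irr U T) {l r : ℝ} (hno : ∀ x ∈ Ioo l r, x ∉ Sg T z m) {t t' : ℝ}
    (ht : t ∈ Ioo l r) (ht' : t' ∈ Ioo l r) (g : Gen T z t) (g' : Gen T z t') :
    (m ∈ T (pt z t) ↔ m ∈ T (pt z t')) := by
  by_contra hne
  rcases le_total t t' with h1 | h1
  · obtain ⟨x, hx, hx'⟩ := exists_sw h h1 g g' hne
    exact hno x ⟨ht.1.trans_le hx'.1, hx'.2.trans_lt ht'.2⟩ hx
  · obtain ⟨x, hx, hx'⟩ := exists_sw h h1 g' g (fun h2 => hne h2.symm)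
    exact hno x ⟨ht'.1.trans_le hx'.1, hx'.2.trans_lt ht.2⟩ hx

theorem Sg_nonempty (h : Irr U T) (ha : Alt T z m) : (Sg T z m).Nonempty := by
  obtain ⟨t, -, hg⟩ := gen_exists h z isOpen_univ univ_nonempty
  have hg1 : Gen T z (t + 1) := by simpa using hg.shift 1
  obtain ⟨x, hx, -⟩ := exists_sw (m := m) h (by linarith : t ≤ t + 1) hg hg1 (by
    have := ha t hg
    tauto)
  exact ⟨x, hx⟩

/-- the type of a generic time is stable -/
theorem ty_pers (h : Irr U T) {y₀ : ℂ} {t₀ : ℝ} (ha : Alt T y₀ m) (hg : Gen T y₀ t₀) :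
    ∀ᶠ q : ℂ × ℝ in 𝓝 (y₀, t₀), Alt T q.1 m → Gen T q.1 q.2 →
      (m ∈ T (pt q.1 q.2) ↔ m ∈ T (pt y₀ t₀)) := by
  have hc : ∀ c : ℝ, Continuous fun q : ℂ × ℝ => pt q.1 (q.2 + c) := by
    intro c
    unfold pt
    exact continuous_fst.add (continuous_cis.comp (by fun_prop))
  by_cases hm : m ∈ T (pt y₀ t₀)
  · have h1 : m ∉ T (pt y₀ (t₀ + 1)) := (ha t₀ hg).1 hm
    filter_upwards [((hc 1).tendsto (y₀, t₀)).eventually (h.nhd _)] with q hq ha' hg'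
    exact iff_of_true ((ha' q.2 hg').2 fun h2 => h1 (hq h2)) hm
  · have h0 := ((hc 0).tendsto (y₀, t₀)).eventually (h.nhd _)
    simp only [add_zero] at h0
    filter_upwards [h0] with q hq _ _
    exact iff_of_false (fun h2 => hm (hq h2)) hm

/-! ### Perturbation of a crossing -/

theorem perturb (h : Irr U T) {y w : ℂ} {a : Fin 6} {s τ l r η : ℝ} {b : Prop}
    (p : Option (Fin 6)) (n : ℤ) (hw : w ∈ U a) (hd : dist (pt (npt y s p) (τ + n)) w = 1)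
    (hτ : τ ∈ Ioo l r) (hty : ∀ t ∈ Ioo l r, Gen T y t → (m ∈ T (pt y t) ↔ b)) (hη : 0 < η) :
    ∃ τ', |τ' - τ| < η ∧ JGen T y s τ' ∧ (m ∈ T (pt y τ') ↔ b) ∧
      a ∉ T (pt (npt y s p) (τ' + n)) := by
  set X : ℝ → ℂ := fun t => pt (npt y s p) (t + n) with hX
  have hXc : Continuous X := (continuous_pt _).comp (by fun_prop)
  have hO : IsOpen {t : ℝ | t ∈ Ioo l r ∧ |t - τ| < η ∧ w + (X t - X τ) ∈ U a} := by
    have o1 : IsOpen {t : ℝ | |t - τ| < η} := isOpen_lt (by fun_prop) continuous_const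
    have o2 : IsOpen {t : ℝ | w + (X t - X τ) ∈ U a} :=
      (h.mx.isOpen a).preimage (f := fun t : ℝ => w + (X t - X τ))
        (continuous_const.add (hXc.sub continuous_const))
    exact isOpen_Ioo.inter (o1.inter o2)
  obtain ⟨τ', ⟨h1, h2, h3⟩, hg⟩ := jgen_exists h y s hO
    ⟨τ, hτ, by rw [sub_self, abs_zero]; exact hη, by rw [sub_self, add_zero]; exact hw⟩
  refine ⟨τ', h2, hg, hty τ' h1 (hg none), fun hcon => ?_⟩
  refine h.mx.notMem' h3 ?_ (h.sub _ hcon)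
  have e1 : dist (w + (X τ' - X τ)) (X τ') = dist (X τ) w := by
    rw [dist_eq_norm, dist_eq_norm, ← norm_neg]
    congr 1; ring
  have e2 : dist (w + (X τ' - X τ)) (X τ') = 1 := e1.trans hd
  exact e2

theorem crossing_unif {e : ℝ} (he : e = 1 ∨ e = -1) {η : ℝ} (h0 : 0 < η) (h1 : η < 1) :
    ∃ δ > 0, ∀ y w : ℂ, dist w y < δ → ∀ k s : ℝ,
      (1 < dist (S5.H827.xx y k (2 * e) s s) w → ∃ r ∈ Ioo (0 : ℝ) η,
        dist (S5.H827.xx y k (2 * e) s (s + e * r)) w = 1) ∧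
      (dist (S5.H827.xx y k (2 * e) s s) w < 1 → ∃ r ∈ Ioo (0 : ℝ) η,
        dist (S5.H827.xx y k (2 * e) s (s - e * r)) w = 1) := by
  obtain ⟨δ, hδ, hball⟩ := Metric.eventually_nhds_iff.1 (S5.H827.crossing he h0 h1 0)
  refine ⟨δ, hδ, fun y w hw k s => ?_⟩
  have hw' : dist (w - y) 0 < δ := by
    rwa [dist_zero_right, ← dist_eq_norm]
  have e1 : ∀ τ, dist (S5.H827.xx y k (2 * e) s τ) w = dist (S5.H827.xx 0 k (2 * e) s τ) (w - y) := by
    intro τ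
    rw [dist_eq_norm, dist_eq_norm]
    congr 1
    unfold S5.H827.xx pt
    ring
  have h2 := hball hw' k s
  simp only [← e1] at h2
  exact h2

/-! ### Directions -/

/-- `d · u(θ)` -/
def Ad (d : ℂ) (θ : ℝ) : ℝ :=
  d.re * Real.cos (θ * (Real.pi / 3)) + d.im * Real.sin (θ * (Real.pi / 3))

theorem Ad_neg (d : ℂ) (θ : ℝ) : Ad (-d) θ = -Ad d θ := by
  unfold Ad; rw [Complex.neg_re, Complex.neg_im]; ring

theorem Ad_one (d : ℂ) (θ : ℝ) : Ad d (θ + 1) = Ad d θ / 2 + √3 / 2 *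
    (d.im * Real.cos (θ * (Real.pi / 3)) - d.re * Real.sin (θ * (Real.pi / 3))) := by
  unfold Ad
  have e : (θ + 1) * (Real.pi / 3) = θ * (Real.pi / 3) + Real.pi / 3 := by ring
  rw [e, Real.cos_add, Real.sin_add, Real.cos_pi_div_three, Real.sin_pi_div_three]
  ring

theorem Ad_three (d : ℂ) (θ : ℝ) : Ad d (θ + 3) = -Ad d θ := by
  unfold Ad
  have e : (θ + 3) * (Real.pi / 3) = θ * (Real.pi / 3) + Real.pi := by ring
  rw [e, Real.cos_add_pi, Real.sin_add_pi]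
  ring

theorem Ad_sub (d : ℂ) (θ : ℝ) : Ad d (θ + 2) = Ad d (θ + 1) - Ad d θ := by
  have h1 := Ad_one d θ
  have h2 := Ad_one d (θ + 1)
  have e : θ + 1 + 1 = θ + 2 := by ring
  rw [e] at h2
  have e2 : (θ + 1) * (Real.pi / 3) = θ * (Real.pi / 3) + Real.pi / 3 := by ring
  have h3 : d.im * Real.cos ((θ + 1) * (Real.pi / 3)) - d.re * Real.sin ((θ + 1) * (Real.pi / 3)) =
      (d.im * Real.cos (θ * (Real.pi / 3)) - d.re * Real.sin (θ * (Real.pi / 3))) / 2 -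
        √3 / 2 * Ad d θ := by
    unfold Ad
    rw [e2, Real.cos_add, Real.sin_add, Real.cos_pi_div_three, Real.sin_pi_div_three]
    ring
  rw [h3] at h2
  have h4 : √3 * √3 = 3 := Real.mul_self_sqrt (by norm_num)
  rw [h2, h1]
  linear_combination (-(Ad d θ) / 4) * h4

theorem Ad_sq (d : ℂ) (θ : ℝ) : Ad d θ ^ 2 + Ad d (θ + 1) ^ 2 + Ad d (θ + 2) ^ 2 =
    3 / 2 * (d.re ^ 2 + d.im ^ 2) := by
  rw [Ad_sub, Ad_one]
  set p := Ad d θ with hp
  set q := d.im * Real.cos (θ * (Real.pi / 3)) - d.re * Real.sin (θ * (Real.pi / 3)) with hq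
  have h4 : √3 * √3 = 3 := Real.mul_self_sqrt (by norm_num)
  have h5 : p ^ 2 + q ^ 2 = d.re ^ 2 + d.im ^ 2 := by
    rw [hp, hq]
    unfold Ad
    have h6 := Real.sin_sq_add_cos_sq (θ * (Real.pi / 3))
    linear_combination (d.re ^ 2 + d.im ^ 2) * h6
  linear_combination (3 / 2) * h5 + (q ^ 2 / 2) * h4

/-- at most one of three directions is almost perpendicular to `d` -/
theorem three_dir (d : ℂ) (θ : ℝ) : ∃ l₀ : Fin 6, ∀ l : Fin 6, l ≠ l₀ → l ≠ l₀ + 3 →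
    d.re ^ 2 + d.im ^ 2 ≤ 4 * Ad d (θ + ((l.val : ℤ) : ℝ)) ^ 2 := by
  have e0 : Ad d (θ + ((((0 : Fin 6).val : ℕ) : ℤ) : ℝ)) = Ad d θ := by simp
  have e1 : Ad d (θ + ((((1 : Fin 6).val : ℕ) : ℤ) : ℝ)) = Ad d (θ + 1) := by simp
  have e2 : Ad d (θ + ((((2 : Fin 6).val : ℕ) : ℤ) : ℝ)) = Ad d (θ + 2) := by simp
  have e3 : Ad d (θ + ((((3 : Fin 6).val : ℕ) : ℤ) : ℝ)) = -Ad d θ := by
    rw [← Ad_three]; simp
  have e4 : Ad d (θ + ((((4 : Fin 6).val : ℕ) : ℤ) : ℝ)) = -Ad d (θ + 1) := by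
    rw [← Ad_three]
    congr 1
    show θ + ((4 : ℤ) : ℝ) = θ + 1 + 3
    push_cast; ring
  have e5 : Ad d (θ + ((((5 : Fin 6).val : ℕ) : ℤ) : ℝ)) = -Ad d (θ + 2) := by
    rw [← Ad_three]
    congr 1
    show θ + ((5 : ℤ) : ℝ) = θ + 2 + 3
    push_cast; ring
  have hsq := Ad_sq d θ
  have hsub := Ad_sub d θ
  set x := Ad d θ
  set y := Ad d (θ + 1)
  set w := Ad d (θ + 2)
  set D := d.re ^ 2 + d.im ^ 2
  by_cases hx : 4 * x ^ 2 < D
  · have hy : D ≤ 4 * y ^ 2 := by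
      by_contra hcon
      have hcon := not_le.1 hcon
      have h7 : w ^ 2 = (y - x) ^ 2 := by rw [hsub]
      have h8 := sq_nonneg (x + y)
      linarith only [hsq, hx, hcon, h7, h8, show (y - x) ^ 2 + (x + y) ^ 2 = 2 * x ^ 2 + 2 * y ^ 2 by ring]
    have hw : D ≤ 4 * w ^ 2 := by
      by_contra hcon
      have hcon := not_le.1 hcon
      have h7 : y ^ 2 = (x + w) ^ 2 := by rw [hsub]; ring
      have h8 := sq_nonneg (x - w)
      linarith only [hsq, hx, hcon, h7, h8, show (x + w) ^ 2 + (x - w) ^ 2 = 2 * x ^ 2 + 2 * w ^ 2 by ring]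
    refine ⟨0, fun l h1 h2 => ?_⟩
    fin_cases l
    · exact absurd rfl h1
    · show D ≤ 4 * Ad d (θ + ((((1 : Fin 6).val : ℕ) : ℤ) : ℝ)) ^ 2
      rw [e1]; exact hy
    · show D ≤ 4 * Ad d (θ + ((((2 : Fin 6).val : ℕ) : ℤ) : ℝ)) ^ 2
      rw [e2]; exact hw
    · exact absurd rfl h2
    · show D ≤ 4 * Ad d (θ + ((((4 : Fin 6).val : ℕ) : ℤ) : ℝ)) ^ 2
      rw [e4, neg_sq]; exact hy
    · show D ≤ 4 * Ad d (θ + ((((5 : Fin 6).val : ℕ) : ℤ) : ℝ)) ^ 2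
      rw [e5, neg_sq]; exact hw
  · have hx := not_lt.1 hx
    by_cases hy : 4 * y ^ 2 < D
    · have hw : D ≤ 4 * w ^ 2 := by
        by_contra hcon
        have hcon := not_le.1 hcon
        have h7 : x ^ 2 = (y - w) ^ 2 := by rw [hsub]; ring
        have h8 := sq_nonneg (y + w)
        linarith only [hsq, hy, hcon, h7, h8,
          show (y - w) ^ 2 + (y + w) ^ 2 = 2 * y ^ 2 + 2 * w ^ 2 by ring]
      refine ⟨1, fun l h1 h2 => ?_⟩
      fin_cases l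
      · show D ≤ 4 * Ad d (θ + ((((0 : Fin 6).val : ℕ) : ℤ) : ℝ)) ^ 2
        rw [e0]; exact hx
      · exact absurd rfl h1
      · show D ≤ 4 * Ad d (θ + ((((2 : Fin 6).val : ℕ) : ℤ) : ℝ)) ^ 2
        rw [e2]; exact hw
      · show D ≤ 4 * Ad d (θ + ((((3 : Fin 6).val : ℕ) : ℤ) : ℝ)) ^ 2
        rw [e3, neg_sq]; exact hx
      · exact absurd rfl h2
      · show D ≤ 4 * Ad d (θ + ((((5 : Fin 6).val : ℕ) : ℤ) : ℝ)) ^ 2
        rw [e5, neg_sq]; exact hw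
    · have hy := not_lt.1 hy
      refine ⟨2, fun l h1 h2 => ?_⟩
      fin_cases l
      · show D ≤ 4 * Ad d (θ + ((((0 : Fin 6).val : ℕ) : ℤ) : ℝ)) ^ 2
        rw [e0]; exact hx
      · show D ≤ 4 * Ad d (θ + ((((1 : Fin 6).val : ℕ) : ℤ) : ℝ)) ^ 2
        rw [e1]; exact hy
      · exact absurd rfl h1
      · show D ≤ 4 * Ad d (θ + ((((3 : Fin 6).val : ℕ) : ℤ) : ℝ)) ^ 2
        rw [e3, neg_sq]; exact hx
      · show D ≤ 4 * Ad d (θ + ((((4 : Fin 6).val : ℕ) : ℤ) : ℝ)) ^ 2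
        rw [e4, neg_sq]; exact hy
      · exact absurd rfl h2

/-- two near points are on different sides of each other's circles -/
theorem sides {y y' : ℂ} {θ θ₀ : ℝ} (hd : dist y' y < 3 / 4) (hne : y' ≠ y)
    (h0 : (y' - y).re ^ 2 + (y' - y).im ^ 2 ≤ 4 * Ad (y' - y) θ₀ ^ 2)
    (hc : |Real.cos (θ * (Real.pi / 3)) - Real.cos (θ₀ * (Real.pi / 3))| < 1 / 16)
    (hs : |Real.sin (θ * (Real.pi / 3)) - Real.sin (θ₀ * (Real.pi / 3))| < 1 / 16) :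
    (0 < Ad (y' - y) θ₀ → dist (pt y θ) y' < 1 ∧ 1 < dist (pt y' θ) y) ∧
    (Ad (y' - y) θ₀ ≤ 0 → 1 < dist (pt y θ) y' ∧ dist (pt y' θ) y < 1) := by
  have e1 := S5.H827.dist_sq y y' θ
  have e2 := S5.H827.dist_sq y' y θ
  set d := y' - y with hdd
  have e3 : y - y' = -d := by rw [hdd]; ring
  have e1' : dist (pt y θ) y' ^ 2 = 1 - 2 * Ad d θ + (d.re ^ 2 + d.im ^ 2) := e1
  have e2' : dist (pt y' θ) y ^ 2 = 1 + 2 * Ad d θ + (d.re ^ 2 + d.im ^ 2) := by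
    rw [e2, e3, Complex.neg_re, Complex.neg_im]
    unfold Ad
    ring
  set R := dist y' y with hR
  have hR0 : 0 < R := dist_pos.2 hne
  have hRD : R ^ 2 = d.re ^ 2 + d.im ^ 2 := by
    rw [hR, dist_eq_norm, ← hdd, Complex.sq_norm, Complex.normSq_apply]; ring
  have hre : |d.re| ≤ R := by
    rw [hR, dist_eq_norm, ← hdd]; exact Complex.abs_re_le_norm d
  have him : |d.im| ≤ R := by
    rw [hR, dist_eq_norm, ← hdd]; exact Complex.abs_im_le_norm d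
  have hdiff : |Ad d θ - Ad d θ₀| ≤ R / 8 := by
    have e4 : Ad d θ - Ad d θ₀ =
        d.re * (Real.cos (θ * (Real.pi / 3)) - Real.cos (θ₀ * (Real.pi / 3))) +
        d.im * (Real.sin (θ * (Real.pi / 3)) - Real.sin (θ₀ * (Real.pi / 3))) := by
      unfold Ad; ring
    rw [e4]
    refine (abs_add_le _ _).trans ?_
    rw [abs_mul, abs_mul]
    have h5 := mul_le_mul hre hc.le (abs_nonneg _) hR0.le
    have h6 := mul_le_mul him hs.le (abs_nonneg _) hR0.le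
    linarith
  have hsq : R ^ 2 ≤ (2 * Ad d θ₀) ^ 2 := by rw [hRD]; linarith
  have habs : R ≤ |2 * Ad d θ₀| := by
    have := sq_le_sq.1 hsq
    rwa [abs_of_pos hR0] at this
  rw [abs_le] at hdiff
  have hR2 : R ^ 2 < 3 / 4 * R := by
    have := mul_lt_mul_of_pos_right hd hR0
    rw [sq]; exact this
  constructor
  · intro hpos
    rw [abs_of_pos (by linarith)] at habs
    constructor
    · by_contra hcon
      have hcon := one_le_pow₀ (n := 2) (not_lt.1 hcon)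
      rw [e1', ← hRD] at hcon
      linarith
    · by_contra hcon
      have hcon := pow_le_one₀ (n := 2) dist_nonneg (not_lt.1 hcon)
      rw [e2', ← hRD] at hcon
      have := sq_nonneg R
      linarith
  · intro hneg
    rw [abs_of_nonpos (by linarith)] at habs
    constructor
    · by_contra hcon
      have hcon := pow_le_one₀ (n := 2) dist_nonneg (not_lt.1 hcon)
      rw [e1', ← hRD] at hcon
      have := sq_nonneg R
      linarith
    · by_contra hcon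
      have hcon := one_le_pow₀ (n := 2) (not_lt.1 hcon)
      rw [e2', ← hRD] at hcon
      linarith

/-! ### The system at a pair with constant data -/

theorem sysR_core (h : Irr U T) (hmin : Mn U T) {y₀ : ℂ} {s₀ : ℝ} (hz : T y₀ = {m}ᶜ)
    (hb : ¬ Biex T y₀) (hN : ∀ q, dist q y₀ = 1 → ¬ Biex T q) (hs₀ : s₀ ∈ Sg T y₀ m)
    {Q : Set State} (hQ : ∀ σ ∈ Q, (∀ p j, σ p j ⊆ nd T y₀ s₀ p → σ p j ∈ Up T (npt y₀ s₀ p)) ∧
      R1 m (nd T y₀ s₀) σ) {l₀ : Fin 6}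
    (m3r : ∀ a, a ≠ m → ∀ k, k + 1 ≠ l₀ → k + 1 ≠ l₀ + 3 → ∀ t : Prop, ∃ σ ∈ Q,
      (m ∈ σ none 0 ↔ t) ∧ a ∉ σ (some k) (k + 2))
    (m3l : ∀ a, a ≠ m → ∀ k, k - 1 ≠ l₀ → k - 1 ≠ l₀ + 3 → ∀ t : Prop, ∃ σ ∈ Q,
      (m ∈ σ none 0 ↔ t) ∧ a ∉ σ (some k) (k - 2)) :
    SysR m (nd T y₀ s₀) Q l₀ := by
  have ha : Alt T y₀ m := (biex_or_alt h hz).resolve_left hb
  have hR : ∀ σ ∈ Q, R1 m (nd T y₀ s₀) σ := fun σ hσ => (hQ σ hσ).2
  have hup : ∀ σ ∈ Q, ∀ p j, σ p j ⊆ nd T y₀ s₀ p → σ p j ∈ Up T (npt y₀ s₀ p) :=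
    fun σ hσ => (hQ σ hσ).1
  refine ⟨hz, fun k => mem_nb h ha hs₀ _, fun k => ?_, fun σ hσ => (hR σ hσ).ne,
    fun σ hσ => (hR σ hσ).hex, fun σ hσ => (hR σ hσ).inz, fun σ hσ => (hR σ hσ).inv,
    fun σ hσ => (hR σ hσ).inr, fun σ hσ => (hR σ hσ).inl, fun σ hσ => (hR σ hσ).two,
    fun σ hσ => (hR σ hσ).gap, fun σ hσ => (hR σ hσ).rz, fun σ hσ => (hR σ hσ).rv,
    fun σ hσ => (hR σ hσ).alt, ?_, ?_, m3r, m3l⟩
  · by_contra hcon
    push Not at hcon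
    exact hN _ (dist_pt y₀ _) (biex_six h hcon)
  · intro σ hσ σ' hσ' p j j' h1 h2 h3
    obtain ⟨q, hq, hq'⟩ := hup σ hσ p j h1
    obtain ⟨r, hr, hr'⟩ := hup σ' hσ' p j' h2
    exact npt_biex hN hb s₀ p ⟨q, r, hq, hr, h3.mono hq' hr'⟩
  · intro p hp a hap
    obtain ⟨d, e, hd, he, hda, hea, hde, hdq, heq⟩ := h.two_contacts hmin hp hap
    have key : ∀ σ ∈ Q, ∀ j, ∀ d ∈ nd T y₀ s₀ p,
        (∀ q, dist q (npt y₀ s₀ p) = 1 → T q ≠ {a, d}) → σ p j ≠ {a, d} := by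
      intro σ hσ j d hd hdq hcon
      obtain ⟨q, hq, hq'⟩ := hup σ hσ p j (by
        rw [hcon]; rintro i (rfl | rfl) <;> assumption)
      rw [hcon] at hq'
      have h5 := (hq.two h).1
      have h6 : ({a, d} : Set (Fin 6)).ncard ≤ 2 := by
        refine (Set.ncard_insert_le _ _).trans ?_
        rw [Set.ncard_singleton]
      exact hdq q hq.1 (Set.eq_of_subset_of_ncard_le hq' (h6.trans h5) (Set.toFinite _))
    exact ⟨d, e, hd, he, hda, hea, hde, fun σ hσ j => ⟨key σ hσ j d hd hdq, key σ hσ j e he heq⟩⟩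

/-- near `(y₀, s₀, s₀)` the letters directed to a named node are inside its palette at `y₀`, `s₀` -/
theorem ev_in3 (h : Irr U T) (y₀ : ℂ) (s₀ : ℝ) : ∀ᶠ q : ℂ × ℝ × ℝ in 𝓝 (y₀, s₀, s₀),
    (∀ k : Fin 6, st T q.1 q.2.1 q.2.2 none k ⊆ nd T y₀ s₀ (some k)) ∧
    (∀ k : Fin 6, st T q.1 q.2.1 q.2.2 (some k) (k + 3) ⊆ nd T y₀ s₀ none) ∧
    (∀ k : Fin 6, st T q.1 q.2.1 q.2.2 (some k) (k + 2) ⊆ nd T y₀ s₀ (some (k + 1))) ∧
    (∀ k : Fin 6, st T q.1 q.2.1 q.2.2 (some k) (k - 2) ⊆ nd T y₀ s₀ (some (k - 1))) := by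
  have hnc : ∀ p : Option (Fin 6), Continuous fun q : ℂ × ℝ × ℝ => npt q.1 q.2.1 p := by
    rintro (_ | k)
    · exact continuous_fst
    · show Continuous fun q : ℂ × ℝ × ℝ => pt q.1 (q.2.1 + ((k.val : ℤ) : ℝ))
      unfold pt
      exact continuous_fst.add (continuous_cis.comp (by fun_prop))
  have key : ∀ (p : Option (Fin 6)) (n : ℤ), ∀ᶠ q : ℂ × ℝ × ℝ in 𝓝 (y₀, s₀, s₀),
      T (pt (npt q.1 q.2.1 p) (q.2.2 + n)) ⊆ T (pt (npt y₀ s₀ p) (s₀ + n)) := by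
    intro p n
    have h1 : Continuous fun q : ℂ × ℝ × ℝ => pt (npt q.1 q.2.1 p) (q.2.2 + n) := by
      unfold pt
      exact (hnc p).add (continuous_cis.comp (by fun_prop))
    exact (h1.tendsto (y₀, s₀, s₀)).eventually (h.nhd _)
  refine Filter.Eventually.and ?_ (Filter.Eventually.and ?_ (Filter.Eventually.and ?_ ?_))
  · exact eventually_all.2 fun k => key none k.val
  · refine eventually_all.2 fun k => (key (some k) (k.val + 3)).mono fun q hq => ?_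
    rw [st_eq T q.1 q.2.1 q.2.2 (some k) (k + 3) (fin_add3 k)]
    refine hq.trans (le_of_eq ?_)
    have e : s₀ + (((k.val : ℤ) + 3 : ℤ) : ℝ) = s₀ + ((k.val : ℤ) : ℝ) + 3 := by push_cast; ring
    rw [e]
    exact congrArg T (pt_back y₀ _)
  · refine eventually_all.2 fun k => (key (some k) (k.val + 2)).mono fun q hq => ?_
    rw [st_eq T q.1 q.2.1 q.2.2 (some k) (k + 2) (fin_add2 k)]
    refine hq.trans (le_of_eq ?_)
    have e : s₀ + (((k.val : ℤ) + 2 : ℤ) : ℝ) = s₀ + ((k.val : ℤ) : ℝ) + 2 := by push_cast; ring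
    unfold nd
    rw [e, npt_eq y₀ s₀ (k + 1) (fin_add1 k)]
    refine congrArg T ((pt_right y₀ _).trans ?_)
    congr 1; push_cast; ring
  · refine eventually_all.2 fun k => (key (some k) (k.val - 2)).mono fun q hq => ?_
    rw [st_eq T q.1 q.2.1 q.2.2 (some k) (k - 2) (fin_sub2 k)]
    refine hq.trans (le_of_eq ?_)
    have e : s₀ + (((k.val : ℤ) - 2 : ℤ) : ℝ) = s₀ + ((k.val : ℤ) : ℝ) - 2 := by push_cast; ring
    unfold nd
    rw [e, npt_eq y₀ s₀ (k - 1) (fin_sub1 k)]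
    refine congrArg T ((pt_left y₀ _).trans ?_)
    congr 1; push_cast; ring

/-- the side data of a base: on the side `ς` of some switching direction the type is `b` -/
def Side (T : ℂ → Set (Fin 6)) (m : Fin 6) (y : ℂ) (t1 t2 η ς : ℝ) (b : Prop) : Prop :=
  ∃ s ∈ Sg T y m, s ∈ Icc t1 t2 ∧ ∀ r ∈ Ioo (0 : ℝ) η, ∃ l' r', s + ς * r ∈ Ioo l' r' ∧
    ∀ t ∈ Ioo l' r', Gen T y t → (m ∈ T (pt y t) ↔ b)

/-- the first and the last switching direction between two times of different types -/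
theorem side_data (h : Irr U T) {y : ℂ} (ha : Alt T y m) {t1 t2 δ : ℝ} (hδ : 0 < δ)
    (ht : t1 + 2 * δ ≤ t2) {b : Prop}
    (h1 : ∀ t, |t - t1| < δ → Gen T y t → (m ∈ T (pt y t) ↔ b))
    (h2 : ∀ t, |t - t2| < δ → Gen T y t → (m ∈ T (pt y t) ↔ ¬ b)) :
    Side T m y t1 t2 δ (-1) b ∧ Side T m y t1 t2 δ 1 (¬ b) := by
  have no : ∀ (t0 : ℝ) (c : Prop), (∀ t, |t - t0| < δ → Gen T y t → (m ∈ T (pt y t) ↔ c)) →
      ∀ x, |x - t0| < δ → x ∉ Sg T y m := by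
    intro t0 c hc x hx hxS
    have h3 : ∀ᶠ t in 𝓝 x, |t - t0| < δ := by
      have h4 : Continuous fun t : ℝ => |t - t0| := by fun_prop
      exact (h4.tendsto x).eventually (gt_mem_nhds hx)
    obtain ⟨u, ⟨hu, hu'⟩, hu2⟩ := ((freq_in ha hxS 0).and_eventually h3).exists
    obtain ⟨v, ⟨hv, hv'⟩, hv2⟩ := ((freq_out ha hxS 0).and_eventually h3).exists
    rw [Int.cast_zero, add_zero] at hu' hv'
    exact hv' ((hc v hv2 hv).2 ((hc u hu2 hu).1 hu'))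
  have no1 := no t1 b h1
  have no2 := no t2 (¬ b) h2
  obtain ⟨u, hu, hug⟩ := gen_exists h y isOpen_Ioo (nonempty_Ioo.2 (show t1 < t1 + δ by linarith))
  obtain ⟨v, hv, hvg⟩ := gen_exists h y isOpen_Ioo (nonempty_Ioo.2 (show t2 - δ < t2 by linarith))
  have hub : m ∈ T (pt y u) ↔ b := h1 u (by rw [abs_lt]; constructor <;> linarith [hu.1, hu.2]) hug
  have hvb : m ∈ T (pt y v) ↔ ¬ b :=
    h2 v (by rw [abs_lt]; constructor <;> linarith [hv.1, hv.2]) hvg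
  have huv : u ≤ v := by linarith [hu.2, hv.1]
  obtain ⟨x, hx, hxI⟩ := exists_sw (m := m) h huv hug hvg (by tauto)
  have hne : (Sg T y m ∩ Icc t1 t2).Nonempty := ⟨x, hx, by linarith [hu.1, hxI.1],
    by linarith [hv.2, hxI.2]⟩
  have hcomp : IsCompact (Sg T y m ∩ Icc t1 t2) := isCompact_Icc.inter_left (isClosed_Sg T y m)
  obtain ⟨sL, hL⟩ := hcomp.exists_isLeast hne
  obtain ⟨sR, hR⟩ := hcomp.exists_isGreatest hne
  have hL1 : t1 + δ ≤ sL := by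
    by_contra hcon
    exact no1 sL (by rw [abs_lt]; constructor <;> linarith [hL.1.2.1, not_le.1 hcon]) hL.1.1
  have hR1 : sR ≤ t2 - δ := by
    by_contra hcon
    exact no2 sR (by rw [abs_lt]; constructor <;> linarith [hR.1.2.2, not_le.1 hcon]) hR.1.1
  constructor
  · refine ⟨sL, hL.1.1, hL.1.2, fun r hr => ⟨t1, sL, ⟨by linarith [hr.2], by linarith [hr.1]⟩,
      fun t ht' hg => ?_⟩⟩
    rw [ty_const h (l := t1) (r := sL) (fun q hq hqS => ?_) ht' (t' := u)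
      ⟨hu.1, by linarith [hu.2]⟩ hg hug]
    · exact hub
    · exact absurd (hL.2 ⟨hqS, hq.1.le, hq.2.le.trans hL.1.2.2⟩) (not_le.2 hq.2)
  · refine ⟨sR, hR.1.1, hR.1.2, fun r hr => ⟨sR, t2, ⟨by linarith [hr.1], by linarith [hr.2]⟩,
      fun t ht' hg => ?_⟩⟩
    rw [ty_const h (l := sR) (r := t2) (fun q hq hqS => ?_) ht' (t' := v)
      ⟨by linarith [hv.1], hv.2⟩ hg hvg]
    · exact hvb
    · exact absurd (hR.2 ⟨hqS, hR.1.2.1.trans hq.1.le, hq.2.le⟩) (not_le.2 hq.1)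

/-- **The system at a pair with constant data, centre not isolated.** -/
theorem sysR_of_pair (h : Irr U T) (hmin : Mn U T) {X : Set ℂ}
    (hX : ∀ y ∈ X, T y = {m}ᶜ ∧ ¬ Biex T y ∧ ∀ q, dist q y = 1 → ¬ Biex T q) {y₀ : ℂ} {s₀ : ℝ}
    (hy₀ : y₀ ∈ X) (hs₀ : s₀ ∈ Sg T y₀ m)
    (hconst : ∀ᶠ q : ℂ × ℝ in 𝓝 (y₀, s₀), q.1 ∈ X → q.2 ∈ Sg T q.1 m →
      nd T q.1 q.2 = nd T y₀ s₀ ∧ ∀ p, Up T (npt q.1 q.2 p) = Up T (npt y₀ s₀ p))
    (hacc : ∀ ε > 0, ∃ y' ∈ X, y' ≠ y₀ ∧ dist y' y₀ < ε) :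
    ∃ Q l₀, SysR m (nd T y₀ s₀) Q l₀ := by
  have hA : ∀ y ∈ X, Alt T y m := fun y hy =>
    (biex_or_alt h (hX y hy).1).resolve_left (hX y hy).2.1
  have ha := hA y₀ hy₀
  -- the neighbourhood
  obtain ⟨ε₁, hε₁, hb₁⟩ := Metric.eventually_nhds_iff.1 hconst
  obtain ⟨ε₂, hε₂, hb₂⟩ := Metric.eventually_nhds_iff.1 (ev_in3 h y₀ s₀)
  have hcs : ∀ᶠ s in 𝓝 s₀, ∀ l : Fin 6,
      |Real.cos ((s + ((l.val : ℤ) : ℝ)) * (Real.pi / 3)) -
        Real.cos ((s₀ + ((l.val : ℤ) : ℝ)) * (Real.pi / 3))| < 1 / 16 ∧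
      |Real.sin ((s + ((l.val : ℤ) : ℝ)) * (Real.pi / 3)) -
        Real.sin ((s₀ + ((l.val : ℤ) : ℝ)) * (Real.pi / 3))| < 1 / 16 := by
    refine eventually_all.2 fun l => Filter.Eventually.and ?_ ?_
    · have h1 : Continuous fun s : ℝ => |Real.cos ((s + ((l.val : ℤ) : ℝ)) * (Real.pi / 3)) -
          Real.cos ((s₀ + ((l.val : ℤ) : ℝ)) * (Real.pi / 3))| := by fun_prop
      have h2 := h1.tendsto s₀
      simp only [sub_self, abs_zero] at h2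
      exact h2.eventually (gt_mem_nhds (by norm_num))
    · have h1 : Continuous fun s : ℝ => |Real.sin ((s + ((l.val : ℤ) : ℝ)) * (Real.pi / 3)) -
          Real.sin ((s₀ + ((l.val : ℤ) : ℝ)) * (Real.pi / 3))| := by fun_prop
      have h2 := h1.tendsto s₀
      simp only [sub_self, abs_zero] at h2
      exact h2.eventually (gt_mem_nhds (by norm_num))
  obtain ⟨ε₃, hε₃, hb₃⟩ := Metric.eventually_nhds_iff.1 hcs
  obtain ⟨ε, hε, he₁, he₂, he₃, he₄⟩ : ∃ ε > 0, ε ≤ ε₁ ∧ ε ≤ ε₂ ∧ ε ≤ ε₃ ∧ ε ≤ 1 / 2 :=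
    ⟨min (min ε₁ ε₂) (min ε₃ (1 / 2)), lt_min (lt_min hε₁ hε₂) (lt_min hε₃ (by norm_num)),
      (min_le_left _ _).trans (min_le_left _ _), (min_le_left _ _).trans (min_le_right _ _),
      (min_le_right _ _).trans (min_le_left _ _), (min_le_right _ _).trans (min_le_right _ _)⟩
  -- two times of different types
  obtain ⟨t1, t2, ht12, hg1, hg2, hb1, hb2, hty⟩ : ∃ t1 t2, t1 < t2 ∧ Gen T y₀ t1 ∧
      Gen T y₀ t2 ∧ |t1 - s₀| < ε / 2 ∧ |t2 - s₀| < ε / 2 ∧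
      (m ∈ T (pt y₀ t2) ↔ ¬ m ∈ T (pt y₀ t1)) := by
    have h3 : ∀ᶠ t in 𝓝 s₀, |t - s₀| < ε / 2 := by
      have h4 : Continuous fun t : ℝ => |t - s₀| := by fun_prop
      have h5 := h4.tendsto s₀
      simp only [sub_self, abs_zero] at h5
      exact h5.eventually (gt_mem_nhds (by linarith))
    obtain ⟨u, ⟨hu, hu'⟩, hu2⟩ := ((freq_in ha hs₀ 0).and_eventually h3).exists
    obtain ⟨v, ⟨hv, hv'⟩, hv2⟩ := ((freq_out ha hs₀ 0).and_eventually h3).exists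
    rw [Int.cast_zero, add_zero] at hu' hv'
    have huv : u ≠ v := by
      rintro rfl
      exact hv' hu'
    rcases lt_or_gt_of_ne huv with h6 | h6
    · exact ⟨u, v, h6, hu, hv, hu2, hv2, by tauto⟩
    · exact ⟨v, u, h6, hv, hu, hv2, hu2, by tauto⟩
  -- stability of the types
  obtain ⟨δ₁, hδ₁, hd₁⟩ := Metric.eventually_nhds_iff.1 (ty_pers h ha hg1)
  obtain ⟨δ₂, hδ₂, hd₂⟩ := Metric.eventually_nhds_iff.1 (ty_pers h ha hg2)
  obtain ⟨δ, hδ, hf₁, hf₂, hf₃, hf₄⟩ : ∃ δ > 0, δ ≤ δ₁ ∧ δ ≤ δ₂ ∧ δ ≤ (t2 - t1) / 2 ∧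
      δ ≤ ε / 4 :=
    ⟨min (min δ₁ δ₂) (min ((t2 - t1) / 2) (ε / 4)),
      lt_min (lt_min hδ₁ hδ₂) (lt_min (by linarith) (by linarith)),
      (min_le_left _ _).trans (min_le_left _ _), (min_le_left _ _).trans (min_le_right _ _),
      (min_le_right _ _).trans (min_le_left _ _), (min_le_right _ _).trans (min_le_right _ _)⟩
  set b : Prop := m ∈ T (pt y₀ t1) with hbdef
  have hside : ∀ y ∈ X, dist y y₀ < δ → Side T m y t1 t2 δ (-1) b ∧ Side T m y t1 t2 δ 1 (¬ b) := by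
    intro y hy hyd
    refine side_data h (hA y hy) hδ (by linarith) (fun t ht hg => ?_) (fun t ht hg => ?_)
    · refine hd₁ (y := (y, t)) ?_ (hA y hy) hg
      rw [Prod.dist_eq, max_lt_iff, Real.dist_eq]
      exact ⟨by linarith, by linarith⟩
    · have h6 := hd₂ (y := (y, t)) (by
        rw [Prod.dist_eq, max_lt_iff, Real.dist_eq]
        exact ⟨by linarith, by linarith⟩) (hA y hy) hg
      exact h6.trans hty
  -- crossings
  obtain ⟨c₁, hc₁, hcr₁⟩ := crossing_unif (e := 1) (Or.inl rfl) hδ (by linarith)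
  obtain ⟨c₂, hc₂, hcr₂⟩ := crossing_unif (e := -1) (Or.inr rfl) hδ (by linarith)
  obtain ⟨y₁, hy₁, hne, hdist⟩ := hacc (min (min δ (3 / 4)) (min c₁ c₂))
    (lt_min (lt_min hδ (by norm_num)) (lt_min hc₁ hc₂))
  rw [lt_min_iff, lt_min_iff, lt_min_iff] at hdist
  obtain ⟨⟨hdδ, hd34⟩, hdc₁, hdc₂⟩ := hdist
  obtain ⟨l₀, hl₀⟩ := three_dir (y₁ - y₀) s₀
  refine ⟨{σ | (∀ p j, σ p j ⊆ nd T y₀ s₀ p → σ p j ∈ Up T (npt y₀ s₀ p)) ∧
      R1 m (nd T y₀ s₀) σ}, l₀, ?_⟩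
  set Q : Set State := {σ | (∀ p j, σ p j ⊆ nd T y₀ s₀ p → σ p j ∈ Up T (npt y₀ s₀ p)) ∧
      R1 m (nd T y₀ s₀) σ} with hQ
  -- one demand at one base
  have demand : ∀ (y y' : ℂ), y ∈ X → y' ∈ X → dist y y₀ < δ → dist y' y < c₁ → dist y' y < c₂ →
      ∀ (a : Fin 6), a ≠ m → ∀ (k j : Fin 6) (e : ℤ), (e = 1 ∨ e = -1) →
      ((j.val : ℤ) % 6 = ((k.val : ℤ) + 2 * e) % 6) → ∀ (ς : ℝ) (t : Prop),
      Side T m y t1 t2 δ ς t →
      (∀ s ∈ Icc t1 t2, (1 < dist (pt y (s + ((k.val : ℤ) : ℝ) + e)) y' ∧ ς = e) ∨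
        (dist (pt y (s + ((k.val : ℤ) : ℝ) + e)) y' < 1 ∧ ς = -e)) →
      ∃ σ ∈ Q, (m ∈ σ none 0 ↔ t) ∧ a ∉ σ (some k) j := by
    intro y y' hy hy' hyd hyc₁ hyc₂ a ham k j e he hj ς t hS hin
    obtain ⟨s, hsS, hsI, hJ⟩ := hS
    have hab : ∀ s ∈ Icc t1 t2, |s - s₀| < ε / 2 := by
      intro s hs
      rw [abs_lt] at hb1 hb2 ⊢
      constructor <;> linarith [hs.1, hs.2, hb1.1, hb2.2]
    have hss := hab s hsI
    have he' : (e : ℝ) = 1 ∨ (e : ℝ) = -1 := by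
      rcases he with rfl | rfl
      · left; norm_num
      · right; norm_num
    have hxx : S5.H827.xx y ((k.val : ℤ) : ℝ) (2 * (e : ℝ)) s s =
        pt y (s + ((k.val : ℤ) : ℝ) + e) := by
      rcases he' with h6 | h6
      · rw [h6, mul_one, S5.H827.xx_two]; congr 1; ring
      · rw [h6, mul_neg, mul_one, S5.H827.xx_neg_two]; congr 1; ring
    -- the crossing for `w` near `y'`
    have hcross : ∀ᶠ w in 𝓝 y', ∃ r ∈ Ioo (0 : ℝ) δ,
        dist (S5.H827.xx y ((k.val : ℤ) : ℝ) (2 * (e : ℝ)) s (s + ς * r)) w = 1 := by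
      have hcont : Continuous fun w : ℂ => dist (pt y (s + ((k.val : ℤ) : ℝ) + e)) w := by
        fun_prop
      have hcr : ∀ᶠ w in 𝓝 y', (1 < dist (S5.H827.xx y ((k.val : ℤ) : ℝ) (2 * (e : ℝ)) s s) w →
          ∃ r ∈ Ioo (0 : ℝ) δ,
            dist (S5.H827.xx y ((k.val : ℤ) : ℝ) (2 * (e : ℝ)) s (s + e * r)) w = 1) ∧
          (dist (S5.H827.xx y ((k.val : ℤ) : ℝ) (2 * (e : ℝ)) s s) w < 1 → ∃ r ∈ Ioo (0 : ℝ) δ,
            dist (S5.H827.xx y ((k.val : ℤ) : ℝ) (2 * (e : ℝ)) s (s - e * r)) w = 1) := by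
        have hcont2 : Continuous fun w : ℂ => dist w y := by fun_prop
        rcases he' with h6 | h6
        · rw [h6]
          filter_upwards [(hcont2.tendsto y').eventually (gt_mem_nhds hyc₁)] with w hw
          exact hcr₁ y w hw _ s
        · rw [h6]
          filter_upwards [(hcont2.tendsto y').eventually (gt_mem_nhds hyc₂)] with w hw
          exact hcr₂ y w hw _ s
      rcases hin s hsI with ⟨h7, h8⟩ | ⟨h7, h8⟩
      · filter_upwards [(hcont.tendsto y').eventually (lt_mem_nhds h7), hcr] with w hw hw'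
        rw [hxx] at hw'
        obtain ⟨r, hr, hr'⟩ := hw'.1 hw
        exact ⟨r, hr, by rw [h8]; exact hr'⟩
      · filter_upwards [(hcont.tendsto y').eventually (gt_mem_nhds h7), hcr] with w hw hw'
        rw [hxx] at hw'
        obtain ⟨r, hr, hr'⟩ := hw'.2 hw
        refine ⟨r, hr, ?_⟩
        have h9 : s + ς * r = s - e * r := by rw [h8]; ring
        rw [h9]; exact hr'
    have hay' : a ∈ T y' := by rw [(hX y' hy').1]; exact ham
    obtain ⟨w, hw, r, hr, hd⟩ := ((h.pure y' a hay').and_eventually hcross).exists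
    obtain ⟨l', r', hlr, hty'⟩ := hJ r hr
    have hς : |ς| = 1 := by
      rcases hin s hsI with ⟨-, h8⟩ | ⟨-, h8⟩ <;> rw [h8] <;> rcases he' with h6 | h6 <;>
        rw [h6] <;> norm_num
    have hd' : dist (pt (npt y s (some k)) (s + ς * r + (((k.val : ℤ) + 2 * e : ℤ) : ℝ))) w = 1 := by
      have e1 : pt (npt y s (some k)) (s + ς * r + (((k.val : ℤ) + 2 * e : ℤ) : ℝ)) =
          S5.H827.xx y ((k.val : ℤ) : ℝ) (2 * (e : ℝ)) s (s + ς * r) := by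
        show pt (pt y (s + ((k.val : ℤ) : ℝ))) (s + ς * r + (((k.val : ℤ) + 2 * e : ℤ) : ℝ)) =
          pt (pt y (((k.val : ℤ) : ℝ) + s)) (((k.val : ℤ) : ℝ) + 2 * (e : ℝ) + (s + ς * r))
        have e2 : s + ((k.val : ℤ) : ℝ) = ((k.val : ℤ) : ℝ) + s := by ring
        have e3 : s + ς * r + (((k.val : ℤ) + 2 * e : ℤ) : ℝ) =
            ((k.val : ℤ) : ℝ) + 2 * (e : ℝ) + (s + ς * r) := by push_cast; ring
        rw [e2, e3]
      rw [e1]; exact hd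
    obtain ⟨τ, hτ, hg, htyp, hak⟩ := perturb h (some k) ((k.val : ℤ) + 2 * e)
      (h.mem_of_single (by rw [hw])) hd' hlr hty' (show 0 < ε / 8 by linarith)
    have hτs : |τ - s| < ε / 2 := by
      have h9 : |ς * r| < ε / 4 := by
        rw [abs_mul, hς, one_mul, abs_of_pos hr.1]; linarith [hr.2]
      have h10 : τ - s = (τ - (s + ς * r)) + ς * r := by ring
      rw [h10]
      refine (abs_add_le _ _).trans_lt (by linarith)
    have hτ₀ : |τ - s₀| < ε := by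
      have h10 : τ - s₀ = (τ - s) + (s - s₀) := by ring
      rw [h10]
      refine (abs_add_le _ _).trans_lt (by linarith)
    obtain ⟨i1, i2, i3, i4⟩ := hb₂ (y := (y, s, τ)) (by
      rw [Prod.dist_eq, Prod.dist_eq, max_lt_iff, max_lt_iff, Real.dist_eq, Real.dist_eq]
      exact ⟨by linarith, by linarith, by linarith⟩)
    obtain ⟨k1, k2⟩ := hb₁ (y := (y, s)) (by
      rw [Prod.dist_eq, max_lt_iff, Real.dist_eq]
      exact ⟨by linarith, by linarith⟩) hy hsS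
    refine ⟨st T y s τ, ⟨fun p j hsub => ?_,
      R1_of h (hX y hy).1 (hA y hy) hsS (by linarith) hg k1 i1 i2 i3 i4⟩, ?_, ?_⟩
    · rw [← k2 p]
      exact mem_Up hg (by rw [k1]; exact hsub)
    · have e0 : st T y s τ none 0 = T (pt y τ) := by
        have e1 : τ + (((0 : Fin 6).val : ℤ) : ℝ) = τ := by simp
        show T (pt y (τ + (((0 : Fin 6).val : ℤ) : ℝ))) = T (pt y τ)
        rw [e1]
      rw [e0]; exact htyp
    · rw [st_eq T y s τ (some k) j hj]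
      exact hak
  -- all demands
  have hd01 : dist y₀ y₁ < c₁ := by rw [dist_comm]; exact hdc₁
  have hd02 : dist y₀ y₁ < c₂ := by rw [dist_comm]; exact hdc₂
  have all : ∀ (a : Fin 6), a ≠ m → ∀ (k j l : Fin 6) (e : ℤ), (e = 1 ∨ e = -1) →
      ((j.val : ℤ) % 6 = ((k.val : ℤ) + 2 * e) % 6) →
      ((l.val : ℤ) % 6 = ((k.val : ℤ) + e) % 6) → l ≠ l₀ → l ≠ l₀ + 3 → ∀ t : Prop,
      ∃ σ ∈ Q, (m ∈ σ none 0 ↔ t) ∧ a ∉ σ (some k) j := by
    intro a ham k j l e he hj hl hne0 hne3 t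
    have h0 := hl₀ l hne0 hne3
    have hpt : ∀ (y : ℂ) (s : ℝ), pt y (s + ((k.val : ℤ) : ℝ) + e) =
        pt y (s + ((l.val : ℤ) : ℝ)) := by
      intro y s
      rw [pt_cong y s hl]
      congr 1; push_cast; ring
    have hs16 : ∀ s ∈ Icc t1 t2,
        (0 < Ad (y₁ - y₀) (s₀ + ((l.val : ℤ) : ℝ)) →
          dist (pt y₀ (s + ((l.val : ℤ) : ℝ))) y₁ < 1 ∧
          1 < dist (pt y₁ (s + ((l.val : ℤ) : ℝ))) y₀) ∧
        (Ad (y₁ - y₀) (s₀ + ((l.val : ℤ) : ℝ)) ≤ 0 →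
          1 < dist (pt y₀ (s + ((l.val : ℤ) : ℝ))) y₁ ∧
          dist (pt y₁ (s + ((l.val : ℤ) : ℝ))) y₀ < 1) := by
      intro s hs
      have h5 := hb₃ (y := s) (by
        rw [Real.dist_eq, abs_lt]
        rw [abs_lt] at hb1 hb2
        constructor <;> linarith [hs.1, hs.2, hb1.1, hb2.2]) l
      exact sides hd34 hne h0 h5.1 h5.2
    obtain ⟨S0m, S0p⟩ := hside y₀ hy₀ (by rw [dist_self]; exact hδ)
    obtain ⟨S1m, S1p⟩ := hside y₁ hy₁ hdδ
    have d00 : dist y₀ y₀ < δ := by rw [dist_self]; exact hδ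
    -- the side which is needed
    have hside0 : ∀ ς : ℝ, ς = 1 ∨ ς = -1 → ∃ t' : Prop, (t' ↔ (ς = -1 ↔ b)) ∧
        Side T m y₀ t1 t2 δ ς t' ∧ Side T m y₁ t1 t2 δ ς t' := by
      rintro ς (rfl | rfl)
      · refine ⟨¬ b, ?_, S0p, S1p⟩
        have : ¬ ((1 : ℝ) = -1) := by norm_num
        tauto
      · exact ⟨b, by tauto, S0m, S1m⟩
    obtain ⟨ς, hς, hςt⟩ : ∃ ς : ℝ, (ς = 1 ∨ ς = -1) ∧ (t ↔ (ς = -1 ↔ b)) := by
      by_cases htb : (t ↔ b)
      · exact ⟨-1, Or.inr rfl, by tauto⟩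
      · refine ⟨1, Or.inl rfl, ?_⟩
        have : ¬ ((1 : ℝ) = -1) := by norm_num
        tauto
    obtain ⟨t', ht', hS0, hS1⟩ := hside0 ς hς
    have htt : t' = t := propext (ht'.trans hςt.symm)
    rw [htt] at hS0 hS1
    have he' : ς = e ∨ ς = -e := by
      rcases he with rfl | rfl <;> rcases hς with h6 | h6 <;> rw [h6] <;> norm_num
    by_cases hpos : 0 < Ad (y₁ - y₀) (s₀ + ((l.val : ℤ) : ℝ))
    · rcases he' with h6 | h6
      · exact demand y₁ y₀ hy₁ hy₀ hdδ hd01 hd02 a ham k j e he hj ς t hS1 fun s hs =>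
          Or.inl ⟨by rw [hpt]; exact ((hs16 s hs).1 hpos).2, h6⟩
      · exact demand y₀ y₁ hy₀ hy₁ d00 hdc₁ hdc₂ a ham k j e he hj ς t hS0 fun s hs =>
          Or.inr ⟨by rw [hpt]; exact ((hs16 s hs).1 hpos).1, h6⟩
    · have hneg := not_lt.1 hpos
      rcases he' with h6 | h6
      · exact demand y₀ y₁ hy₀ hy₁ d00 hdc₁ hdc₂ a ham k j e he hj ς t hS0 fun s hs =>
          Or.inl ⟨by rw [hpt]; exact ((hs16 s hs).2 hneg).1, h6⟩
      · exact demand y₁ y₀ hy₁ hy₀ hdδ hd01 hd02 a ham k j e he hj ς t hS1 fun s hs =>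
          Or.inr ⟨by rw [hpt]; exact ((hs16 s hs).2 hneg).2, h6⟩
  refine sysR_core h hmin (hX y₀ hy₀).1 (hX y₀ hy₀).2.1 (hX y₀ hy₀).2.2 hs₀ (fun σ hσ => hσ)
    (fun a ham k h1 h2 t => all a ham k (k + 2) (k + 1) 1 (Or.inl rfl) (fin_add2 k) (fin_add1 k)
      h1 h2 t)
    (fun a ham k h1 h2 t => all a ham k (k - 2) (k - 1) (-1) (Or.inr rfl) (fin_sub2 k)
      (fin_sub1 k) h1 h2 t)

end Vale.Agent.P032.H89
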